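import Vale.Agent.P093.U.Defs
import Vale.Agent.P251.G.LC

/-!
# P093, part U, block U5: the lift

From a deformation `H` of the unit `u : (R^t)⁺ → C⁺`, over `X`, to a map `a = H 1` such that the
cover has small order on `{a ≠ ∞}`, we make a map `b : X × (R^t × R)⁺ → Y⁺` homotopic to the
inclusion, where `Y = {(c, l) : l ≥ 0 or c ∈ im u}`:

`b_τ (x, v, l) = (H (clamp (τ l)) x v, (1 - τ) l + τ λ(l))`, `λ(l) = min l 0 + max (l - 2) 0`.
-/

open OnePoint Set Filter Topology
open Vale.Agent.P251.St (Space Map Homotopic)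
open Vale.Agent.P251.G.LC (smash continuous_smash)

namespace Vale.Agent.P093.U

namespace LiftAux

/-- continuity of a family of pointed maps of one-point compactifications -/
theorem continuous_extend {P A Y : Type*} [TopologicalSpace P] [TopologicalSpace A]
    [LocallyCompactSpace A] [T2Space A] [TopologicalSpace Y]
    (F : P → OnePoint A → OnePoint Y) (hinf : ∀ p, F p ∞ = ∞)
    (hc : Continuous (fun q : P × A => F q.1 (q.2 : OnePoint A)))
    (hp : ∀ K : Set Y, IsCompact K → ∀ p₀, ∃ N ∈ 𝓝 p₀, ∃ L : Set A, IsCompact L ∧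
      ∀ p ∈ N, ∀ a, a ∉ L → F p (a : OnePoint A) ∉ ((↑) '' K : Set (OnePoint Y))) :
    Continuous (fun q : P × OnePoint A => F q.1 q.2) := by
  rw [continuous_iff_continuousAt]
  rintro ⟨p₀, e⟩
  induction e using OnePoint.rec with
  | infty =>
    rw [ContinuousAt, hinf]
    intro S hS
    obtain ⟨V, hVS, hV, hmV⟩ := mem_nhds_iff.mp hS
    rw [OnePoint.isOpen_iff_of_mem hmV] at hV
    obtain ⟨_, hK⟩ := hV
    obtain ⟨N, hN, L, hL, hNL⟩ := hp _ hK p₀
    have hL' : ((↑) '' L : Set (OnePoint A))ᶜ ∈ 𝓝 (∞ : OnePoint A) :=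
      (hL.image OnePoint.continuous_coe).isClosed.isOpen_compl.mem_nhds (by simp)
    rw [mem_map]
    filter_upwards [prod_mem_nhds hN hL'] with q hq
    obtain ⟨p, a⟩ := q
    obtain ⟨hpN, haL⟩ := hq
    refine hVS ?_
    induction a using OnePoint.rec with
    | infty => simpa [hinf] using hmV
    | coe a =>
      by_contra hcon
      have haL' : a ∉ L := fun h => haL ⟨a, h, rfl⟩
      apply hNL p hpN a haL'
      change F p (a : OnePoint A) ∉ V at hcon
      generalize hz : F p (a : OnePoint A) = z at hcon ⊢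
      induction z using OnePoint.rec with
      | infty => exact absurd hmV hcon
      | coe z => exact ⟨z, hcon, rfl⟩
  | coe a =>
    have hJ : IsOpenEmbedding (fun q : P × A => ((q.1, (q.2 : OnePoint A)) : P × OnePoint A)) :=
      IsOpenEmbedding.id.prodMap OnePoint.isOpenEmbedding_coe
    exact (hJ.continuousAt_iff (x := (p₀, a))).1 hc.continuousAt

/-- clamp to the unit interval -/
noncomputable def cl (r : ℝ) : unitInterval := Set.projIcc (0 : ℝ) 1 zero_le_one r

theorem continuous_cl : Continuous cl := continuous_projIcc (h := zero_le_one)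

theorem cl_of_nonpos {r : ℝ} (h : r ≤ 0) : cl r = 0 := Set.projIcc_of_le_left _ h

theorem cl_of_one_le {r : ℝ} (h : 1 ≤ r) : cl r = 1 := Set.projIcc_of_right_le _ h

/-- the function `λ` -/
noncomputable def lam (l : ℝ) : ℝ := min l 0 + max (l - 2) 0

theorem continuous_lam : Continuous lam := by
  unfold lam; fun_prop

theorem lam_of_nonneg {l : ℝ} (h : 0 ≤ l) : 0 ≤ lam l := by
  unfold lam; rw [min_eq_right h, zero_add]; exact le_max_right _ _

theorem lam_pos {l : ℝ} (h : 0 < lam l) : 2 < l := by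
  unfold lam at h
  by_contra hl
  push Not at hl
  have h1 : max (l - 2) 0 = 0 := max_eq_right (by linarith)
  have h2 : min l 0 ≤ 0 := min_le_right _ _
  linarith

theorem lam_sub (l : ℝ) : |lam l - l| ≤ 2 := by
  unfold lam
  rcases le_total l 0 with h | h
  · rw [min_eq_left h, max_eq_right (by linarith)]; simp
  · rw [min_eq_right h]
    rcases le_total l 2 with h' | h'
    · rw [max_eq_right (by linarith), abs_le]; constructor <;> linarith
    · rw [max_eq_left (by linarith), abs_le]; constructor <;> linarith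

/-- the second coordinate of the homotopy -/
noncomputable def mu (τ : unitInterval) (l : ℝ) : ℝ := (1 - τ) * l + τ * lam l

theorem continuous_mu : Continuous (fun q : unitInterval × ℝ => mu q.1 q.2) := by
  unfold mu
  have := continuous_lam
  fun_prop

theorem mu_of_nonneg (τ : unitInterval) {l : ℝ} (h : 0 ≤ l) : 0 ≤ mu τ l := by
  unfold mu
  have h1 := lam_of_nonneg h
  have h2 := τ.2.1
  have h3 := τ.2.2
  have : 0 ≤ 1 - (τ : ℝ) := by linarith
  positivity

theorem mu_sub (τ : unitInterval) (l : ℝ) : |mu τ l - l| ≤ 2 := by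
  have h : mu τ l - l = τ * (lam l - l) := by unfold mu; ring
  rw [h, abs_mul, abs_of_nonneg τ.2.1]
  have h1 := lam_sub l
  have h2 := τ.2.2
  have h3 := abs_nonneg (lam l - l)
  nlinarith [τ.2.1]

theorem mu_zero (l : ℝ) : mu 0 l = l := by simp [mu]

theorem mu_one (l : ℝ) : mu 1 l = lam l := by simp [mu]

section

variable {X : Type*} [TopologicalSpace X] {t : ℕ} {C : Space} {u : (Fin t → ℝ) → C.carrier}

/-- the homotopy, with values in `(C × ℝ)⁺` -/
noncomputable def G (H : unitInterval → X → OnePoint (Fin t → ℝ) → C.Pt)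
    (τ : unitInterval) (x : X) (e : OnePoint ((Fin t → ℝ) × ℝ)) : OnePoint (C.carrier × ℝ) :=
  e.elim ∞ (fun q => smash (H (cl (τ * q.2)) x (q.1 : OnePoint (Fin t → ℝ)))
    ((mu τ q.2 : ℝ) : OnePoint ℝ))

theorem continuous_G {H : unitInterval → X → OnePoint (Fin t → ℝ) → C.Pt}
    (hH : Continuous (fun q : unitInterval × X × OnePoint (Fin t → ℝ) => H q.1 q.2.1 q.2.2))
    (hinf : ∀ τ x, H τ x ∞ = ∞) :
    Continuous (fun q : (unitInterval × X) × OnePoint ((Fin t → ℝ) × ℝ) =>
      G H q.1.1 q.1.2 q.2) := by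
  refine continuous_extend (P := unitInterval × X) (fun p e => G H p.1 p.2 e) (fun _ => rfl) ?_ ?_
  · change Continuous (fun q : (unitInterval × X) × ((Fin t → ℝ) × ℝ) =>
      smash (H (cl (q.1.1 * q.2.2)) q.1.2 (q.2.1 : OnePoint (Fin t → ℝ)))
        ((mu q.1.1 q.2.2 : ℝ) : OnePoint ℝ))
    have h1 : Continuous (fun q : (unitInterval × X) × ((Fin t → ℝ) × ℝ) =>
        H (cl (q.1.1 * q.2.2)) q.1.2 (q.2.1 : OnePoint (Fin t → ℝ))) := by
      refine hH.comp (g := fun q : unitInterval × X × OnePoint (Fin t → ℝ) => H q.1 q.2.1 q.2.2)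
        (f := fun q : (unitInterval × X) × ((Fin t → ℝ) × ℝ) =>
          (cl (q.1.1 * q.2.2), q.1.2, (q.2.1 : OnePoint (Fin t → ℝ)))) ?_
      have h0 := continuous_cl
      have h00 : Continuous (fun v : (Fin t → ℝ) => (v : OnePoint (Fin t → ℝ))) :=
        OnePoint.continuous_coe
      fun_prop
    have h2 : Continuous (fun q : (unitInterval × X) × ((Fin t → ℝ) × ℝ) =>
        ((mu q.1.1 q.2.2 : ℝ) : OnePoint ℝ)) := by
      refine OnePoint.continuous_coe.comp ?_
      exact continuous_mu.comp (f := fun q : (unitInterval × X) × ((Fin t → ℝ) × ℝ) =>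
        (q.1.1, q.2.2)) (by fun_prop)
    exact continuous_smash.comp (h1.prodMk h2)
  · rintro K hK ⟨τ₀, x₀⟩
    have hKC : IsCompact (Prod.fst '' K : Set C.carrier) := hK.image continuous_fst
    have hKR : IsCompact (Prod.snd '' K : Set ℝ) := hK.image continuous_snd
    obtain ⟨R, hR⟩ := hKR.isBounded.exists_norm_le
    have hcl : IsClosed ((↑) '' (Prod.fst '' K : Set C.carrier) : Set C.Pt) :=
      (hKC.image OnePoint.continuous_coe).isClosed
    have hopen : IsOpen {q : unitInterval × X × OnePoint (Fin t → ℝ) |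
        H q.1 q.2.1 q.2.2 ∉ ((↑) '' (Prod.fst '' K : Set C.carrier) : Set C.Pt)} :=
      hcl.isOpen_compl.preimage hH
    have hsub : (univ : Set unitInterval) ×ˢ ({(x₀, (∞ : OnePoint (Fin t → ℝ)))} :
        Set (X × OnePoint (Fin t → ℝ))) ⊆ {q : unitInterval × X × OnePoint (Fin t → ℝ) |
        H q.1 q.2.1 q.2.2 ∉ ((↑) '' (Prod.fst '' K : Set C.carrier) : Set C.Pt)} := by
      rintro ⟨τ, x, e⟩ ⟨-, hq⟩
      simp only [mem_singleton_iff, Prod.mk.injEq] at hq
      obtain ⟨rfl, rfl⟩ := hq
      simp only [Set.mem_ofPred_eq, hinf]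
      simp
    obtain ⟨s', t', -, ht', hs, ht, hst⟩ := generalized_tube_lemma isCompact_univ
      isCompact_singleton hopen hsub
    have hnhd : t' ∈ 𝓝 (x₀, (∞ : OnePoint (Fin t → ℝ))) := ht'.mem_nhds (ht rfl)
    rw [nhds_prod_eq] at hnhd
    obtain ⟨N₁, hN₁, N₂, hN₂, hNN⟩ := Filter.mem_prod_iff.mp hnhd
    obtain ⟨V, hVN, hV, hmV⟩ := mem_nhds_iff.mp hN₂
    rw [OnePoint.isOpen_iff_of_mem hmV] at hV
    obtain ⟨_, hLA⟩ := hV
    refine ⟨univ ×ˢ N₁, ?_, _, hLA.prod (isCompact_Icc (a := -(R + 3)) (b := R + 3)), ?_⟩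
    · rw [nhds_prod_eq]; exact Filter.prod_mem_prod univ_mem hN₁
    · rintro ⟨τ, x⟩ ⟨-, hx⟩ ⟨v, l⟩ hvl ⟨⟨c, r⟩, hcr, hG⟩
      change ((c, r) : C.carrier × ℝ) = smash (H (cl (τ * l)) x (v : OnePoint (Fin t → ℝ)))
        ((mu τ l : ℝ) : OnePoint ℝ) at hG
      generalize hz : H (cl (τ * l)) x (v : OnePoint (Fin t → ℝ)) = z at hG
      induction z using OnePoint.rec with
      | infty => exact absurd hG (OnePoint.coe_ne_infty _)
      | coe z =>
        have hG' := OnePoint.coe_injective hG
        simp only [Prod.mk.injEq] at hG'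
        obtain ⟨rfl, rfl⟩ := hG'
        apply hvl
        refine ⟨?_, ?_⟩
        · intro hv
          have := hst (mk_mem_prod (hs (mem_univ (cl (τ * l)))) (hNN (mk_mem_prod hx (hVN hv))))
          apply this
          exact ⟨c, ⟨_, hcr, rfl⟩, hz.symm⟩
        · have h1 := hR _ ⟨_, hcr, rfl⟩
          have h2 := mu_sub τ l
          rw [Real.norm_eq_abs] at h1
          rw [abs_le] at h1 h2
          constructor <;> simp only at h1 ⊢ <;> linarith

open scoped Classical in
/-- the homotopy `B` -/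
noncomputable def BB (u : (Fin t → ℝ) → C.carrier)
    (H : unitInterval → X → OnePoint (Fin t → ℝ) → C.Pt)
    (τ : unitInterval) (x : X) (e : OnePoint ((Fin t → ℝ) × ℝ)) : OnePoint (cylSet C u) :=
  e.elim ∞ (fun q => (H (cl (τ * q.2)) x (q.1 : OnePoint (Fin t → ℝ))).elim ∞
    (fun c => if hc : ((c, mu τ q.2) : C.carrier × ℝ) ∈ cylSet C u then
      ((⟨(c, mu τ q.2), hc⟩ : cylSet C u) : OnePoint (cylSet C u)) else ∞))

theorem isClosed_cylSet (hu : Topology.IsClosedEmbedding u) : IsClosed (cylSet C u) := by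
  refine IsClosed.union ?_ ?_
  · exact isClosed_le continuous_const continuous_snd
  · exact hu.isClosed_range.preimage continuous_fst

theorem isClosedEmbedding_map_val (hu : Topology.IsClosedEmbedding u) :
    IsClosedEmbedding (OnePoint.map (Subtype.val : cylSet C u → C.carrier × ℝ)) := by
  have hcl := isClosed_cylSet hu
  have hemb : IsClosedEmbedding (Subtype.val : cylSet C u → C.carrier × ℝ) :=
    hcl.isClosedEmbedding_subtypeVal
  refine Continuous.isClosedEmbedding ?_ ?_
  · refine OnePoint.continuous_map hemb.continuous ?_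
    simpa only [coclosedCompact_eq_cocompact] using hemb.tendsto_cocompact
  · exact Option.map_injective Subtype.val_injective

omit [TopologicalSpace X] in
theorem cyl_mem {H : unitInterval → X → OnePoint (Fin t → ℝ) → C.Pt}
    (h0 : ∀ x v, H 0 x v = plus u v) {τ : unitInterval} {x : X} {v : Fin t → ℝ} {l : ℝ}
    {c : C.carrier} (h : H (cl (τ * l)) x (v : OnePoint (Fin t → ℝ)) = (c : C.Pt)) :
    ((c, mu τ l) : C.carrier × ℝ) ∈ cylSet C u := by
  rcases le_total 0 l with hl | hl
  · exact Or.inl (mu_of_nonneg τ hl)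
  · right
    have : cl (τ * l) = 0 := cl_of_nonpos (mul_nonpos_of_nonneg_of_nonpos τ.2.1 hl)
    rw [this, h0] at h
    exact ⟨v, OnePoint.coe_injective h⟩

omit [TopologicalSpace X] in
theorem map_BB {H : unitInterval → X → OnePoint (Fin t → ℝ) → C.Pt}
    (h0 : ∀ x v, H 0 x v = plus u v) (τ : unitInterval) (x : X)
    (e : OnePoint ((Fin t → ℝ) × ℝ)) :
    OnePoint.map (Subtype.val : cylSet C u → C.carrier × ℝ) (BB u H τ x e) = G H τ x e := by
  classical
  induction e using OnePoint.rec with
  | infty => rfl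
  | coe e =>
    obtain ⟨v, l⟩ := e
    change OnePoint.map _ ((H (cl (τ * l)) x (v : OnePoint (Fin t → ℝ))).elim ∞ _) =
      smash (H (cl (τ * l)) x (v : OnePoint (Fin t → ℝ))) _
    generalize hz : H (cl (τ * l)) x (v : OnePoint (Fin t → ℝ)) = z
    induction z using OnePoint.rec with
    | infty => rfl
    | coe z =>
      have := cyl_mem h0 hz
      change OnePoint.map _ (if hc : ((z, mu τ l) : C.carrier × ℝ) ∈ cylSet C u then _ else ∞) = _
      rw [dif_pos this]
      rfl

omit [TopologicalSpace X] in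
theorem BB_coe {H : unitInterval → X → OnePoint (Fin t → ℝ) → C.Pt}
    (h0 : ∀ x v, H 0 x v = plus u v) {τ : unitInterval} {x : X} {v : Fin t → ℝ} {l : ℝ}
    {y : cylSet C u} (h : BB u H τ x ((v, l) : (Fin t → ℝ) × ℝ) = (y : OnePoint (cylSet C u))) :
    H (cl (τ * l)) x (v : OnePoint (Fin t → ℝ)) = (y.1.1 : C.Pt) ∧ mu τ l = y.1.2 := by
  have h1 := map_BB h0 τ x (((v, l) : (Fin t → ℝ) × ℝ) : OnePoint ((Fin t → ℝ) × ℝ))
  rw [h] at h1
  change ((y.1 : C.carrier × ℝ) : OnePoint (C.carrier × ℝ)) =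
    smash (H (cl (τ * l)) x (v : OnePoint (Fin t → ℝ))) ((mu τ l : ℝ) : OnePoint ℝ) at h1
  generalize hz : H (cl (τ * l)) x (v : OnePoint (Fin t → ℝ)) = z at h1
  induction z using OnePoint.rec with
  | infty => exact absurd h1 (OnePoint.coe_ne_infty _)
  | coe z =>
    have h2 := OnePoint.coe_injective h1
    rw [h2]
    exact ⟨rfl, rfl⟩

omit [TopologicalSpace X] in
theorem BB_ne_infty {H : unitInterval → X → OnePoint (Fin t → ℝ) → C.Pt}
    (h0 : ∀ x v, H 0 x v = plus u v) {τ : unitInterval} {x : X} {v : Fin t → ℝ} {l : ℝ}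
    (h : BB u H τ x ((v, l) : (Fin t → ℝ) × ℝ) ≠ ∞) :
    H (cl (τ * l)) x (v : OnePoint (Fin t → ℝ)) ≠ ∞ := by
  obtain ⟨y, hy⟩ := OnePoint.ne_infty_iff_exists.mp h
  rw [(BB_coe h0 hy.symm).1]
  exact OnePoint.coe_ne_infty _

theorem continuous_BB (hu : Topology.IsClosedEmbedding u)
    {H : unitInterval → X → OnePoint (Fin t → ℝ) → C.Pt}
    (hH : Continuous (fun q : unitInterval × X × OnePoint (Fin t → ℝ) => H q.1 q.2.1 q.2.2))
    (hinf : ∀ τ x, H τ x ∞ = ∞) (h0 : ∀ x v, H 0 x v = plus u v) :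
    Continuous (fun q : unitInterval × X × OnePoint ((Fin t → ℝ) × ℝ) =>
      BB u H q.1 q.2.1 q.2.2) := by
  rw [(isClosedEmbedding_map_val hu).isInducing.continuous_iff]
  have h1 := continuous_G hH hinf
  have h2 : Continuous (fun q : unitInterval × X × OnePoint ((Fin t → ℝ) × ℝ) =>
      G H q.1 q.2.1 q.2.2) :=
    h1.comp (f := fun q : unitInterval × X × OnePoint ((Fin t → ℝ) × ℝ) =>
      ((q.1, q.2.1), q.2.2)) (by fun_prop)
  convert h2 using 1
  funext q
  exact map_BB h0 _ _ _

/-! ### the weights -/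

/-- the parameter of the interpolation -/
noncomputable def th (e : OnePoint ((Fin t → ℝ) × ℝ)) : ℝ :=
  e.elim 0 (fun q => max 0 (min 1 (q.2 - 1)))

/-- forget the last coordinate -/
def ph (e : OnePoint ((Fin t → ℝ) × ℝ)) : OnePoint (Fin t → ℝ) :=
  e.elim ∞ (fun q => (q.1 : OnePoint (Fin t → ℝ)))

theorem th_nonneg (e : OnePoint ((Fin t → ℝ) × ℝ)) : 0 ≤ th e := by
  induction e using OnePoint.rec with
  | infty => exact le_rfl
  | coe e => exact le_max_left _ _

theorem th_le_one (e : OnePoint ((Fin t → ℝ) × ℝ)) : th e ≤ 1 := by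
  induction e using OnePoint.rec with
  | infty => exact zero_le_one
  | coe e => exact max_le zero_le_one (min_le_left _ _)

theorem isOpenEmbedding_J :
    IsOpenEmbedding (fun q : X × ((Fin t → ℝ) × ℝ) =>
      ((q.1, (q.2 : OnePoint ((Fin t → ℝ) × ℝ))) : X × OnePoint ((Fin t → ℝ) × ℝ))) :=
  IsOpenEmbedding.id.prodMap OnePoint.isOpenEmbedding_coe

theorem continuousAt_th (x : X) (v : Fin t → ℝ) (l : ℝ) :
    ContinuousAt (fun e : X × OnePoint ((Fin t → ℝ) × ℝ) => th e.2)
      (x, (((v, l) : (Fin t → ℝ) × ℝ) : OnePoint ((Fin t → ℝ) × ℝ))) := by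
  refine (isOpenEmbedding_J.continuousAt_iff (x := (x, (v, l)))).1 ?_
  change ContinuousAt (fun q : X × ((Fin t → ℝ) × ℝ) => max 0 (min 1 (q.2.2 - 1))) _
  fun_prop

theorem continuousAt_ph (x : X) (v : Fin t → ℝ) (l : ℝ) :
    ContinuousAt (fun e : X × OnePoint ((Fin t → ℝ) × ℝ) =>
      ((e.1, ph e.2) : X × OnePoint (Fin t → ℝ)))
      (x, (((v, l) : (Fin t → ℝ) × ℝ) : OnePoint ((Fin t → ℝ) × ℝ))) := by
  refine (isOpenEmbedding_J.continuousAt_iff (x := (x, (v, l)))).1 ?_
  change ContinuousAt (fun q : X × ((Fin t → ℝ) × ℝ) =>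
    ((q.1, (q.2.1 : OnePoint (Fin t → ℝ))) : X × OnePoint (Fin t → ℝ))) _
  have h00 : Continuous (fun v : (Fin t → ℝ) => (v : OnePoint (Fin t → ℝ))) :=
    OnePoint.continuous_coe
  fun_prop

theorem th_pos_iff {v : Fin t → ℝ} {l : ℝ} :
    th (((v, l) : (Fin t → ℝ) × ℝ) : OnePoint ((Fin t → ℝ) × ℝ)) ≠ 0 ↔ 1 < l := by
  change max 0 (min 1 (l - 1)) ≠ 0 ↔ 1 < l
  constructor
  · intro h
    by_contra hl
    apply h
    rw [max_eq_left]
    exact (min_le_right _ _).trans (by linarith [not_lt.mp hl])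
  · intro h
    have : 0 < min 1 (l - 1) := lt_min one_pos (by linarith)
    exact (lt_max_of_lt_right this).ne'

theorem th_eq_one {v : Fin t → ℝ} {l : ℝ} (h : 2 ≤ l) :
    th (((v, l) : (Fin t → ℝ) × ℝ) : OnePoint ((Fin t → ℝ) × ℝ)) = 1 := by
  change max 0 (min 1 (l - 1)) = 1
  rw [min_eq_left (by linarith), max_eq_right zero_le_one]

theorem lift {W : Set (Set X)} (hu : Topology.IsClosedEmbedding u) {d D₀ : ℕ}
    (hD : SmallOn W (id : X → X) univ (fun _ => D₀)) (h : CSmall W C u d) :
    Lift W C u d (D₀ + d + 1) := by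
  classical
  obtain ⟨H, hH, hinf, h0, κ, _, w₁, w₁c, w₁0, w₁s, w₁V, w₁o⟩ := h
  obtain ⟨ι, _, w₀, w₀c, w₀0, w₀s, w₀V, w₀o⟩ := hD
  have key : ∀ x (v : Fin t → ℝ) (l : ℝ), 1 ≤ l →
      BB u H 1 x (((v, l) : (Fin t → ℝ) × ℝ) : OnePoint ((Fin t → ℝ) × ℝ)) ≠ ∞ →
      (x, ph (((v, l) : (Fin t → ℝ) × ℝ) : OnePoint ((Fin t → ℝ) × ℝ))) ∈
        {e : X × OnePoint (Fin t → ℝ) | H 1 e.1 e.2 ≠ ∞} := by
    intro x v l hl hB
    have := BB_ne_infty h0 hB
    rwa [cl_of_one_le (by simpa using hl)] at this
  refine ⟨BB u H, continuous_BB hu hH hinf h0, fun _ _ => rfl, ?_, ?_⟩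
  · intro x v l
    apply (isClosedEmbedding_map_val hu).injective
    rw [map_BB h0]
    change smash (H (cl ((0 : unitInterval) * l)) x (v : OnePoint (Fin t → ℝ)))
      ((mu 0 l : ℝ) : OnePoint ℝ) = _
    rw [cl_of_nonpos (by simp), h0, mu_zero]
    rfl
  · refine ⟨fun e => if ∀ y : cylSet C u, BB u H 1 e.1 e.2 = OnePoint.some y → 0 < y.1.2
        then d else D₀ + d + 1, ?_, ?_, ι ⊕ κ, inferInstance,
        Sum.elim (fun i e => (1 - th e.2) * w₀ i e.1) (fun j e => th e.2 * w₁ j (e.1, ph e.2)),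
        ?_, ?_, ?_, ?_, ?_⟩
    · intro e
      dsimp only
      split_ifs <;> omega
    · intro e he
      dsimp only
      rw [if_pos he]
    · -- continuity
      rintro (i | j) ⟨x, e⟩ he
      · induction e using OnePoint.rec with
        | infty => exact absurd rfl he
        | coe e =>
          obtain ⟨v, l⟩ := e
          refine ContinuousAt.continuousWithinAt ?_
          change ContinuousAt (fun e : X × OnePoint ((Fin t → ℝ) × ℝ) =>
            (1 - th e.2) * w₀ i e.1) _
          have h1 := continuousAt_th x v l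
          have h2 : Continuous (w₀ i) := continuousOn_univ.mp (w₀c i)
          exact (continuousAt_const.sub h1).mul (h2.continuousAt.comp continuousAt_fst)
      · induction e using OnePoint.rec with
        | infty => exact absurd rfl he
        | coe e =>
          obtain ⟨v, l⟩ := e
          refine ContinuousAt.continuousWithinAt ?_
          change ContinuousAt (fun e : X × OnePoint ((Fin t → ℝ) × ℝ) =>
            th e.2 * w₁ j (e.1, ph e.2)) _
          rcases lt_or_ge l 1 with hl | hl
          · have hev : ∀ᶠ e : X × OnePoint ((Fin t → ℝ) × ℝ) in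
                𝓝 (x, (((v, l) : (Fin t → ℝ) × ℝ) : OnePoint ((Fin t → ℝ) × ℝ))),
                th e.2 * w₁ j (e.1, ph e.2) = 0 := by
              have hset : (fun q : X × ((Fin t → ℝ) × ℝ) =>
                  ((q.1, (q.2 : OnePoint ((Fin t → ℝ) × ℝ))) :
                    X × OnePoint ((Fin t → ℝ) × ℝ))) '' {q | q.2.2 < 1} ∈
                  𝓝 (x, (((v, l) : (Fin t → ℝ) × ℝ) : OnePoint ((Fin t → ℝ) × ℝ))) := by
                refine IsOpen.mem_nhds ?_ ⟨(x, (v, l)), hl, rfl⟩
                exact isOpenEmbedding_J.isOpenMap _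
                  (isOpen_lt (by fun_prop) continuous_const)
              filter_upwards [hset]
              rintro _ ⟨⟨x', v', l'⟩, hl', rfl⟩
              have : th (((v', l') : (Fin t → ℝ) × ℝ) : OnePoint ((Fin t → ℝ) × ℝ)) = 0 := by
                by_contra hne
                exact absurd (th_pos_iff.mp hne) (not_lt.mpr (le_of_lt hl'))
              dsimp only
              rw [this, zero_mul]
            exact (continuousAt_congr hev).mpr continuousAt_const
          · have hmem := key x v l hl he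
            have hopen : IsOpen {e : X × OnePoint (Fin t → ℝ) | H 1 e.1 e.2 ≠ ∞} := by
              have : Continuous (fun e : X × OnePoint (Fin t → ℝ) => H 1 e.1 e.2) :=
                hH.comp (f := fun e : X × OnePoint (Fin t → ℝ) =>
                  ((1 : unitInterval), e.1, e.2)) (by fun_prop)
              exact isClosed_singleton.isOpen_compl.preimage this
            have h3 := (w₁c j).continuousAt (hopen.mem_nhds hmem)
            exact (continuousAt_th x v l).mul (ContinuousAt.comp
              (f := fun e : X × OnePoint ((Fin t → ℝ) × ℝ) =>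
                ((e.1, ph e.2) : X × OnePoint (Fin t → ℝ))) h3 (continuousAt_ph x v l))
    · -- nonnegativity
      rintro (i | j) ⟨x, e⟩ he
      · exact mul_nonneg (by linarith [th_le_one e]) (w₀0 i x (mem_univ _))
      · induction e using OnePoint.rec with
        | infty => exact absurd rfl he
        | coe e =>
          obtain ⟨v, l⟩ := e
          by_cases hl : 1 < l
          · exact mul_nonneg (th_nonneg _) (w₁0 j _ (key x v l hl.le he))
          · change 0 ≤ th _ * _
            rw [not_not.mp (fun hne => hl (th_pos_iff.mp hne)), zero_mul]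
    · -- sum
      rintro ⟨x, e⟩ he
      rw [Fintype.sum_sum_type]
      change ∑ i, (1 - th e) * w₀ i x + ∑ j, th e * w₁ j (x, ph e) = 1
      rw [← Finset.mul_sum, ← Finset.mul_sum, w₀s x (mem_univ _)]
      induction e using OnePoint.rec with
      | infty => exact absurd rfl he
      | coe e =>
        obtain ⟨v, l⟩ := e
        by_cases hl : 1 < l
        · rw [w₁s _ (key x v l hl.le he)]; ring
        · rw [not_not.mp (fun hne => hl (th_pos_iff.mp hne))]; ring
    · -- members
      rintro (i | j)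
      · obtain ⟨V, hV, hiV⟩ := w₀V i
        refine ⟨V, hV, ?_⟩
        rintro ⟨x, e⟩ - hne
        exact hiV x (mem_univ _) (right_ne_zero_of_mul hne)
      · obtain ⟨V, hV, hjV⟩ := w₁V j
        refine ⟨V, hV, ?_⟩
        rintro ⟨x, e⟩ he hne
        induction e using OnePoint.rec with
        | infty => exact absurd rfl he
        | coe e =>
          obtain ⟨v, l⟩ := e
          have hl : 1 < l := th_pos_iff.mp (left_ne_zero_of_mul hne)
          exact hjV _ (key x v l hl.le he) (right_ne_zero_of_mul hne)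
    · -- order
      rintro ⟨x, e⟩ he
      induction e using OnePoint.rec with
      | infty => exact absurd rfl he
      | coe e =>
        obtain ⟨v, l⟩ := e
        set E : X × OnePoint ((Fin t → ℝ) × ℝ) :=
          (x, (((v, l) : (Fin t → ℝ) × ℝ) : OnePoint ((Fin t → ℝ) × ℝ))) with hE
        have hA : {i | w₀ i x ≠ 0}.ncard ≤ D₀ + 1 := w₀o x (mem_univ _)
        have hsub : {i | Sum.elim (fun i (e : X × OnePoint ((Fin t → ℝ) × ℝ)) =>
              (1 - th e.2) * w₀ i e.1) (fun j e => th e.2 * w₁ j (e.1, ph e.2)) i E ≠ 0} ⊆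
            Sum.inl '' {i | (1 - th E.2) * w₀ i x ≠ 0} ∪
              Sum.inr '' {j | th E.2 * w₁ j (x, ph E.2) ≠ 0} := by
          rintro (i | j) hi
          · exact Or.inl ⟨i, hi, rfl⟩
          · exact Or.inr ⟨j, hi, rfl⟩
        have hcard := (Set.ncard_le_ncard hsub (Set.toFinite _)).trans (Set.ncard_union_le _ _)
        rw [Set.ncard_image_of_injective _ Sum.inl_injective,
          Set.ncard_image_of_injective _ Sum.inr_injective] at hcard
        have h1 : {i | (1 - th E.2) * w₀ i x ≠ 0}.ncard ≤ D₀ + 1 := by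
          refine le_trans (Set.ncard_le_ncard ?_ (Set.toFinite _)) hA
          intro i hi
          exact right_ne_zero_of_mul hi
        have h2 : {j | th E.2 * w₁ j (x, ph E.2) ≠ 0}.ncard ≤ d + 1 := by
          by_cases hl : 1 < l
          · refine le_trans (Set.ncard_le_ncard ?_ (Set.toFinite _))
              (w₁o (x, ph E.2) (key x v l hl.le he))
            intro j hj
            exact right_ne_zero_of_mul hj
          · have : {j | th E.2 * w₁ j (x, ph E.2) ≠ 0} = ∅ := by
              ext j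
              simp only [Set.mem_ofPred_eq, mem_empty_iff_false, iff_false, not_not]
              rw [hE]
              dsimp only
              rw [not_not.mp (fun hne => hl (th_pos_iff.mp hne)), zero_mul]
            rw [this]; simp
        dsimp only
        split_ifs with hif
        · -- `l > 2`
          obtain ⟨y, hy⟩ := OnePoint.ne_infty_iff_exists.mp he
          have hpos := hif y hy.symm
          have h3 := (BB_coe h0 hy.symm).2
          rw [mu_one] at h3
          have hl2 : 2 < l := lam_pos (by rw [h3]; exact hpos)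
          have h4 : {i | (1 - th E.2) * w₀ i x ≠ 0} = ∅ := by
            ext i
            simp only [Set.mem_ofPred_eq, mem_empty_iff_false, iff_false, not_not]
            rw [hE]
            dsimp only
            rw [th_eq_one hl2.le]; simp
          rw [h4, Set.ncard_empty, zero_add] at hcard
          exact hcard.trans h2
        · exact hcard.trans (by omega)

end

end LiftAux

/-- **U5**, with the order of the cover replaced by any `D₀` -/
theorem lift_of_cSmall' {X : Type*} [TopologicalSpace X] {W : Set (Set X)} {t : ℕ} {C : Space}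
    {u : (Fin t → ℝ) → C.carrier} (hu : Topology.IsClosedEmbedding u) {d D₀ : ℕ}
    (hD : SmallOn W (id : X → X) univ (fun _ => D₀)) (h : CSmall W C u d) :
    Lift W C u d (D₀ + d + 1) :=
  LiftAux.lift hu hD h

end Vale.Agent.P093.U
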