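import Vale.Agent.P093.U.Defs

/-!
# P093, part U, block U2: `SmallOn`

* `smallOn_of_coverDim`, `coverDim_le_of_smallOn` : comparison with the order of covers.
* `SmallOn.join` : the staircase weights of a join of covers.
* `SmallOn.mono`, `SmallOn.comp`, `SmallOn.preimage`, `SmallOn.glue` : formal properties.
-/

open OnePoint Set MeasureTheory
open scoped Topology

namespace Vale.Agent.P093.U

section Small

variable {X : Type*} {E : Type*} [TopologicalSpace E]

theorem SmallOn.mono {W W' : Set (Set X)} {p : E → X} {K K' : Set E} {ord ord' : E → ℕ}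
    (h : SmallOn W p K ord) (hW : ∀ V ∈ W, ∃ V' ∈ W', V ⊆ V') (hK : K' ⊆ K)
    (ho : ∀ e ∈ K', ord e ≤ ord' e) : SmallOn W' p K' ord' := by
  obtain ⟨ι, _, w, h1, h2, h3, h4, h5⟩ := h
  refine ⟨ι, inferInstance, w, fun i => (h1 i).mono hK, fun i e he => h2 i e (hK he),
    fun e he => h3 e (hK he), fun i => ?_, fun e he => ?_⟩
  · obtain ⟨V, hV, hV2⟩ := h4 i
    obtain ⟨V', hV', hVV⟩ := hW V hV
    exact ⟨V', hV', fun e he hne => hVV (hV2 e (hK he) hne)⟩
  · exact (h5 e (hK he)).trans (Nat.add_le_add_right (ho e he) 1)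

theorem SmallOn.comp {E' : Type*} [TopologicalSpace E'] {W : Set (Set X)} {p : E → X} {K : Set E}
    {ord : E → ℕ} (h : SmallOn W p K ord) {φ : E' → E} {K' : Set E'} (hφ : ContinuousOn φ K')
    (hm : MapsTo φ K' K) : SmallOn W (p ∘ φ) K' (ord ∘ φ) := by
  obtain ⟨ι, _, w, h1, h2, h3, h4, h5⟩ := h
  refine ⟨ι, inferInstance, fun i e => w i (φ e), fun i => (h1 i).comp hφ hm,
    fun i e he => h2 i _ (hm he), fun e he => h3 _ (hm he), fun i => ?_, fun e he => h5 _ (hm he)⟩
  obtain ⟨V, hV, hV2⟩ := h4 i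
  exact ⟨V, hV, fun e he hne => hV2 _ (hm he) hne⟩

theorem SmallOn.preimage {X' : Type*} {W : Set (Set X)} {g : X' → X} {p : E → X'} {K : Set E}
    {ord : E → ℕ} (h : SmallOn W (g ∘ p) K ord) :
    SmallOn {V' | ∃ V ∈ W, V' = g ⁻¹' V} p K ord := by
  obtain ⟨ι, _, w, h1, h2, h3, h4, h5⟩ := h
  refine ⟨ι, inferInstance, w, h1, h2, h3, fun i => ?_, h5⟩
  obtain ⟨V, hV, hV2⟩ := h4 i
  exact ⟨g ⁻¹' V, ⟨V, hV, rfl⟩, fun e he hne => hV2 e he hne⟩

/-- normal form with `ι = Fin n` -/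
theorem SmallOn.exists_fin {W : Set (Set X)} {p : E → X} {K : Set E} {ord : E → ℕ}
    (h : SmallOn W p K ord) : ∃ (n : ℕ) (w : Fin n → E → ℝ),
    (∀ i, ContinuousOn (w i) K) ∧ (∀ i, ∀ e ∈ K, 0 ≤ w i e) ∧ (∀ e ∈ K, ∑ i, w i e = 1) ∧
    (∀ i, ∃ V ∈ W, ∀ e ∈ K, w i e ≠ 0 → p e ∈ V) ∧
    ∀ e ∈ K, {i | w i e ≠ 0}.ncard ≤ ord e + 1 := by
  obtain ⟨ι, _, w, h1, h2, h3, h4, h5⟩ := h
  let eq : Fin (Fintype.card ι) ≃ ι := (Fintype.equivFin ι).symm
  refine ⟨Fintype.card ι, fun i => w (eq i), fun i => h1 _, fun i => h2 _, fun e he => ?_,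
    fun i => h4 _, fun e he => ?_⟩
  · rw [← h3 e he]
    exact Fintype.sum_equiv eq _ _ fun _ => rfl
  · have e1 : {i | w (eq i) e ≠ 0} = eq ⁻¹' {i | w i e ≠ 0} := rfl
    rw [e1, ← Set.ncard_image_of_injective _ eq.injective, eq.image_preimage]
    exact h5 e he

end Small

section CoverDim

variable {X : Type*} [TopologicalSpace X]

theorem coverDim_le_of_smallOn {W : Set (Set X)} {d : ℕ}
    (h : SmallOn W (id : X → X) univ (fun _ => d)) : coverDim W ≤ d := by
  obtain ⟨ι, _, w, h1, h2, h3, h4, h5⟩ := h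
  refine Nat.sInf_le ⟨Set.range fun i => {x | w i x ≠ 0}, ⟨Set.finite_range _, ?_, ?_⟩, ?_, ?_⟩
  · rintro V ⟨i, rfl⟩
    have hc : Continuous (w i) := continuousOn_univ.1 (h1 i)
    exact isOpen_ne_fun hc continuous_const
  · rw [Set.eq_univ_iff_forall]
    intro x
    by_contra hx
    have h0 : ∀ i, w i x = 0 := by
      intro i
      by_contra hi
      exact hx ⟨_, ⟨i, rfl⟩, hi⟩
    have := h3 x (mem_univ x)
    simp [h0] at this
  · rintro V ⟨i, rfl⟩
    obtain ⟨V, hV, hV2⟩ := h4 i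
    exact ⟨V, hV, fun x hx => hV2 x (mem_univ x) hx⟩
  · rintro S hS ⟨x, hx⟩
    have h6 : S ⊆ (fun i => {x | w i x ≠ 0}) '' {i | w i x ≠ 0} := by
      intro V hV
      obtain ⟨i, rfl⟩ := hS hV
      exact ⟨i, hx _ hV, rfl⟩
    have h7 := h5 x (mem_univ x)
    calc S.encard ≤ ((fun i => {x | w i x ≠ 0}) '' {i | w i x ≠ 0}).encard := Set.encard_le_encard h6
      _ ≤ {i | w i x ≠ 0}.encard := Set.encard_image_le _ _
      _ = ({i | w i x ≠ 0}.ncard : ℕ∞) := (Set.Finite.cast_ncard_eq (Set.toFinite _)).symm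
      _ ≤ ((d + 1 : ℕ) : ℕ∞) := by exact_mod_cast h7
      _ = (d : ℕ∞) + 1 := by push_cast; rfl

theorem smallOn_of_refine [CompactSpace X] [T2Space X] {W V : Set (Set X)} {d : ℕ}
    (hV : IsFinOpenCover V) (hr : ∀ A ∈ V, ∃ B ∈ W, A ⊆ B)
    (ho : ∀ S ⊆ V, (⋂₀ S).Nonempty → S.encard ≤ d + 1) :
    SmallOn W (id : X → X) univ (fun _ => d) := by
  obtain ⟨hfin, hop, hcov⟩ := hV
  have : Fintype V := hfin.fintype
  let eq : Fin (Fintype.card V) ≃ V := (Fintype.equivFin V).symm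
  obtain ⟨f, hf⟩ := PartitionOfUnity.exists_isSubordinate isClosed_univ
    (fun i => ((eq i : V) : Set X)) (fun i => hop _ (eq i).2) (by
      intro x _
      have : x ∈ ⋃₀ V := by rw [hcov]; trivial
      obtain ⟨A, hA, hxA⟩ := this
      exact mem_iUnion.2 ⟨eq.symm ⟨A, hA⟩, by simpa using hxA⟩)
  have hmem : ∀ i x, f i x ≠ 0 → x ∈ ((eq i : V) : Set X) := fun i x hx =>
    hf i (subset_tsupport _ hx)
  refine ⟨Fin (Fintype.card V), inferInstance, fun i x => f i x,
    fun i => (f i).continuous.continuousOn, fun i x _ => f.nonneg i x, fun x hx => ?_,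
    fun i => ?_, fun x _ => ?_⟩
  · have := f.sum_eq_one (mem_univ x)
    rwa [finsum_eq_sum_of_fintype] at this
  · obtain ⟨B, hB, hAB⟩ := hr _ (eq i).2
    exact ⟨B, hB, fun x _ hx => hAB (hmem i x hx)⟩
  · have h1 := ho ((fun i => ((eq i : V) : Set X)) '' {i | f i x ≠ 0}) (by
      rintro _ ⟨i, _, rfl⟩
      exact (eq i).2) ⟨x, by
        rintro _ ⟨i, hi, rfl⟩
        exact hmem i x hi⟩
    have hinj : Function.Injective fun i => ((eq i : V) : Set X) :=
      Subtype.val_injective.comp eq.injective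
    rw [hinj.encard_image, ← Set.Finite.cast_ncard_eq (Set.toFinite _)] at h1
    exact_mod_cast h1

theorem smallOn_of_coverDim [CompactSpace X] [T2Space X] {W : Set (Set X)}
    (h : IsFinOpenCover W) : SmallOn W (id : X → X) univ (fun _ => coverDim W) := by
  have hne : {d : ℕ | ∃ V : Set (Set X), IsFinOpenCover V ∧ (∀ A ∈ V, ∃ U ∈ W, A ⊆ U) ∧
      ∀ S ⊆ V, (⋂₀ S).Nonempty → S.encard ≤ d + 1}.Nonempty := by
    refine ⟨W.ncard, W, h, fun A hA => ⟨A, hA, Subset.rfl⟩, fun S hS _ => ?_⟩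
    calc S.encard ≤ W.encard := Set.encard_le_encard hS
      _ = (W.ncard : ℕ∞) := (Set.Finite.cast_ncard_eq h.1).symm
      _ ≤ (W.ncard : ℕ∞) + 1 := le_self_add
  obtain ⟨V, hV, hr, ho⟩ := Nat.sInf_mem hne
  exact smallOn_of_refine hV hr ho

end CoverDim

/-! ### The staircase -/

section Stair

/-- partial sums -/
def cum {n : ℕ} (w : Fin n → ℝ) (i : ℕ) : ℝ := ∑ l : Fin n, if (l : ℕ) < i then w l else 0

theorem cum_zero {n : ℕ} (w : Fin n → ℝ) : cum w 0 = 0 := by simp [cum]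

theorem cum_of_le {n : ℕ} (w : Fin n → ℝ) {i : ℕ} (h : n ≤ i) : cum w i = ∑ l, w l := by
  unfold cum
  exact Finset.sum_congr rfl fun l _ => by rw [if_pos (l.2.trans_le h)]

theorem cum_succ {n : ℕ} (w : Fin n → ℝ) (i : Fin n) : cum w (i + 1) = cum w i + w i := by
  unfold cum
  have h : ∀ l : Fin n, (if (l : ℕ) < i + 1 then w l else 0) =
      (if (l : ℕ) < i then w l else 0) + (if l = i then w l else 0) := by
    intro l
    rcases lt_trichotomy (l : ℕ) i with h1 | h1 | h1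
    · rw [if_pos (by omega), if_pos h1, if_neg (by rintro rfl; omega), add_zero]
    · rw [if_pos (by omega), if_neg (by omega), if_pos (Fin.ext h1), zero_add]
    · rw [if_neg (by omega), if_neg (by omega), if_neg (by rintro rfl; omega), add_zero]
  rw [Finset.sum_congr rfl fun l _ => h l, Finset.sum_add_distrib]
  simp

theorem cum_mono {n : ℕ} {w : Fin n → ℝ} (hw : ∀ i, 0 ≤ w i) {i j : ℕ} (h : i ≤ j) :
    cum w i ≤ cum w j := by
  unfold cum
  refine Finset.sum_le_sum fun l _ => ?_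
  split_ifs with h1 h2
  · exact le_rfl
  · omega
  · exact hw l
  · exact le_rfl

variable {J : Type} [Fintype J] {n : J → ℕ}

/-- left end of the interval of a vertex -/
noncomputable def lo (w : ∀ j, Fin (n j) → ℝ) (c : ∀ j, Fin (n j)) : ℝ :=
  Finset.univ.sup' Finset.univ_nonempty
    (fun o : Option J => o.elim 0 fun j => cum (w j) (c j))

/-- right end of the interval of a vertex -/
noncomputable def hi (w : ∀ j, Fin (n j) → ℝ) (c : ∀ j, Fin (n j)) : ℝ :=
  Finset.univ.inf' Finset.univ_nonempty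
    (fun o : Option J => o.elim 1 fun j => cum (w j) (c j + 1))

/-- the staircase weight of a vertex -/
noncomputable def st (w : ∀ j, Fin (n j) → ℝ) (c : ∀ j, Fin (n j)) : ℝ := max (hi w c - lo w c) 0

theorem mem_Ico_iff {w : ∀ j, Fin (n j) → ℝ} {c : ∀ j, Fin (n j)} {u : ℝ} :
    u ∈ Ico (lo w c) (hi w c) ↔
      u ∈ Ico (0 : ℝ) 1 ∧ ∀ j, cum (w j) (c j) ≤ u ∧ u < cum (w j) (c j + 1) := by
  rw [mem_Ico, mem_Ico, lo, hi, Finset.sup'_le_iff, Finset.lt_inf'_iff]
  constructor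
  · rintro ⟨h1, h2⟩
    exact ⟨⟨h1 none (Finset.mem_univ _), h2 none (Finset.mem_univ _)⟩,
      fun j => ⟨h1 (Option.some j) (Finset.mem_univ _), h2 (Option.some j) (Finset.mem_univ _)⟩⟩
  · rintro ⟨⟨h1, h2⟩, h3⟩
    refine ⟨fun o _ => ?_, fun o _ => ?_⟩
    · cases o with
      | none => exact h1
      | some j => exact (h3 j).1
    · cases o with
      | none => exact h2
      | some j => exact (h3 j).2

theorem exists_index {n : ℕ} {w : Fin n → ℝ} (h1 : ∑ i, w i = 1)
    {u : ℝ} (hu : u ∈ Ico (0 : ℝ) 1) : ∃ i : Fin n, cum w i ≤ u ∧ u < cum w (i + 1) := by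
  have hex : ∃ i, u < cum w i := ⟨n, by rw [cum_of_le w le_rfl, h1]; exact hu.2⟩
  classical
  have hf := Nat.find_spec hex
  have h0 : Nat.find hex ≠ 0 := by
    intro h
    rw [h, cum_zero] at hf
    exact absurd hu.1 (not_le.2 hf)
  have hn : Nat.find hex ≤ n := Nat.find_min' hex (by rw [cum_of_le w le_rfl, h1]; exact hu.2)
  obtain ⟨k, hk⟩ := Nat.exists_eq_succ_of_ne_zero h0
  refine ⟨⟨k, by omega⟩, ?_, ?_⟩
  · exact not_lt.1 (Nat.find_min hex (m := k) (by omega))
  · have : k + 1 = Nat.find hex := by omega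
    simpa [this] using hf

theorem sum_st [DecidableEq J] {w : ∀ j, Fin (n j) → ℝ} (hw : ∀ j i, 0 ≤ w j i) (h1 : ∀ j, ∑ i, w j i = 1) :
    ∑ c, st w c = 1 := by
  have hd : Pairwise (Function.onFun Disjoint fun c => Ico (lo w c) (hi w c)) := by
    intro c c' hcc
    rw [Function.onFun, Set.disjoint_left]
    intro u hu hu'
    rw [mem_Ico_iff] at hu hu'
    apply hcc
    funext j
    by_contra hne
    rcases lt_or_gt_of_ne (fun h => hne (Fin.ext h) : (c j : ℕ) ≠ c' j) with h | h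
    · have := cum_mono (hw j) (show (c j : ℕ) + 1 ≤ c' j from h)
      linarith [(hu.2 j).2, (hu'.2 j).1]
    · have := cum_mono (hw j) (show (c' j : ℕ) + 1 ≤ c j from h)
      linarith [(hu'.2 j).2, (hu.2 j).1]
  have hU : ⋃ c, Ico (lo w c) (hi w c) = Ico (0 : ℝ) 1 := by
    ext u
    rw [mem_iUnion]
    constructor
    · rintro ⟨c, hc⟩
      exact (mem_Ico_iff.1 hc).1
    · intro hu
      choose c hc using fun j => exists_index (h1 j) hu
      exact ⟨c, mem_Ico_iff.2 ⟨hu, hc⟩⟩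
  have h2 := measureReal_iUnion_fintype (μ := volume) hd (fun c => measurableSet_Ico)
    (fun c => by rw [Real.volume_Ico]; exact ENNReal.ofReal_ne_top)
  rw [hU, Real.volume_real_Ico] at h2
  simp only [Real.volume_real_Ico] at h2
  simp only [st]
  rw [← h2]
  norm_num

theorem st_ne_zero {w : ∀ j, Fin (n j) → ℝ} {c : ∀ j, Fin (n j)} (h : st w c ≠ 0) :
    ∃ u ∈ Ico (0 : ℝ) 1, ∀ j, cum (w j) (c j) ≤ u ∧ u < cum (w j) (c j + 1) := by
  have h1 : lo w c < hi w c := by
    by_contra h2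
    apply h
    rw [st, max_eq_right (by linarith [not_lt.1 h2])]
  exact ⟨lo w c, mem_Ico_iff.1 ⟨le_rfl, h1⟩⟩

theorem w_ne_zero_of_st {w : ∀ j, Fin (n j) → ℝ} {c : ∀ j, Fin (n j)} (h : st w c ≠ 0) (j : J) :
    w j (c j) ≠ 0 := by
  obtain ⟨u, _, hu⟩ := st_ne_zero h
  intro h0
  have := hu j
  rw [cum_succ, h0, add_zero] at this
  linarith [this.1, this.2]

theorem ncard_st {w : ∀ j, Fin (n j) → ℝ} (hw : ∀ j i, 0 ≤ w j i) {ord : J → ℕ}
    (ho : ∀ j, {i | w j i ≠ 0}.ncard ≤ ord j + 1) :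
    {c | st w c ≠ 0}.ncard ≤ (∑ j, ord j) + 1 := by
  classical
  let rk : (∀ j, Fin (n j)) → ℕ := fun c => ∑ j, {i | w j i ≠ 0 ∧ i < c j}.ncard
  have hlt : ∀ j (a : Fin (n j)), w j a ≠ 0 → ∀ b : Fin (n j), a < b →
      {i | w j i ≠ 0 ∧ i < a}.ncard < {i | w j i ≠ 0 ∧ i < b}.ncard := by
    intro j a ha b hab
    refine Set.ncard_lt_ncard ?_ (Set.toFinite _)
    refine ⟨fun i hi => ⟨hi.1, hi.2.trans hab⟩, fun h => ?_⟩
    exact absurd (h (show a ∈ {i | w j i ≠ 0 ∧ i < b} from ⟨ha, hab⟩)).2 (lt_irrefl a)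
  have hle : ∀ j (a b : Fin (n j)), a ≤ b →
      {i | w j i ≠ 0 ∧ i < a}.ncard ≤ {i | w j i ≠ 0 ∧ i < b}.ncard := by
    intro j a b hab
    exact Set.ncard_le_ncard (fun i hi => ⟨hi.1, hi.2.trans_le hab⟩) (Set.toFinite _)
  have hrk : ∀ c, st w c ≠ 0 → rk c ≤ ∑ j, ord j := by
    intro c hc
    refine Finset.sum_le_sum fun j _ => ?_
    have h1 : {i | w j i ≠ 0 ∧ i < c j}.ncard < {i | w j i ≠ 0}.ncard := by
      refine Set.ncard_lt_ncard ⟨fun i hi => hi.1, fun h => ?_⟩ (Set.toFinite _)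
      exact absurd (h (show c j ∈ {i | w j i ≠ 0} from w_ne_zero_of_st hc j)).2 (lt_irrefl _)
    have := ho j
    omega
  have key : ∀ c c', st w c ≠ 0 → st w c' ≠ 0 → ∀ u u', u ≤ u' →
      (∀ j, cum (w j) (c j) ≤ u ∧ u < cum (w j) (c j + 1)) →
      (∀ j, cum (w j) (c' j) ≤ u' ∧ u' < cum (w j) (c' j + 1)) → rk c = rk c' → c = c' := by
    intro c c' hc hc' u u' huu hu hu' hr
    have h1 : ∀ j, c j ≤ c' j := by
      intro j
      by_contra h
      have h2 := cum_mono (hw j) (show (c' j : ℕ) + 1 ≤ c j from not_le.1 h)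
      linarith [(hu j).1, (hu' j).2]
    by_contra hne
    obtain ⟨j, hj⟩ : ∃ j, c j ≠ c' j := by
      by_contra h
      push Not at h
      exact hne (funext h)
    have h3 : rk c < rk c' := Finset.sum_lt_sum (fun j _ => hle j _ _ (h1 j))
      ⟨j, Finset.mem_univ _, hlt j _ (w_ne_zero_of_st hc j) _ (lt_of_le_of_ne (h1 j) hj)⟩
    omega
  have hinj : InjOn rk {c | st w c ≠ 0} := by
    intro c hc c' hc' hr
    obtain ⟨u, _, hu⟩ := st_ne_zero hc
    obtain ⟨u', _, hu'⟩ := st_ne_zero hc'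
    rcases le_total u u' with h | h
    · exact key c c' hc hc' u u' h hu hu' hr
    · exact (key c' c hc' hc u' u h hu' hu hr.symm).symm
  calc {c | st w c ≠ 0}.ncard ≤ (Iio ((∑ j, ord j) + 1)).ncard :=
        Set.ncard_le_ncard_of_injOn rk (fun c hc => Nat.lt_succ_of_le (hrk c hc)) hinj
          (Set.finite_Iio _)
    _ = (∑ j, ord j) + 1 := by
        rw [Set.ncard_eq_toFinset_card' (Iio _)]
        simp

end Stair

section Join

variable {X : Type*} {E : Type*} [TopologicalSpace E]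

theorem SmallOn.join {J : Type} [Fintype J] {W : J → Set (Set X)} {p : E → X} {K : Set E}
    {ord : J → E → ℕ} (h : ∀ j, SmallOn (W j) p K (ord j)) :
    SmallOn (joinCover W) p K (fun e => ∑ j, ord j e) := by
  classical
  choose n w h1 h2 h3 h4 h5 using fun j => (h j).exists_fin
  have hcum : ∀ (j : J) (i : ℕ), ContinuousOn (fun e => cum (fun l => w j l e) i) K := by
    intro j i
    unfold cum
    refine continuousOn_finsetSum _ fun l _ => ?_
    split_ifs
    · exact h1 j l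
    · exact continuousOn_const
  refine ⟨∀ j, Fin (n j), inferInstance, fun c e => st (fun j i => w j i e) c, fun c => ?_,
    fun c e _ => le_max_right _ _, fun e he => ?_, fun c => ?_, fun e he => ?_⟩
  · refine ContinuousOn.sup (ContinuousOn.sub ?_ ?_) continuousOn_const
    · refine ContinuousOn.finset_inf'_apply _ fun o _ => ?_
      cases o with
      | none => exact continuousOn_const
      | some j => exact hcum j _
    · refine ContinuousOn.finset_sup'_apply _ fun o _ => ?_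
      cases o with
      | none => exact continuousOn_const
      | some j => exact hcum j _
  · exact sum_st (fun j i => h2 j i e he) fun j => h3 j e he
  · choose V hV hVV using fun j => h4 j (c j)
    refine ⟨⋂ j, V j, ⟨V, hV, rfl⟩, fun e he hne => ?_⟩
    exact mem_iInter.2 fun j => hVV j e he (w_ne_zero_of_st hne j)
  · exact ncard_st (fun j i => h2 j i e he) fun j => h5 j e he

/-- binary join -/
theorem SmallOn.inter {W W₀ : Set (Set X)} {p : E → X} {K : Set E} {ord ord₀ : E → ℕ}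
    (h : SmallOn W p K ord) (h₀ : SmallOn W₀ p K ord₀) :
    SmallOn {U | ∃ A ∈ W, ∃ B ∈ W₀, U = A ∩ B} p K (fun e => ord e + ord₀ e) := by
  have h1 := SmallOn.join (W := fun b : Bool => if b then W else W₀)
    (ord := fun b : Bool => if b then ord else ord₀) (p := p) (K := K) (fun b => by
      cases b
      · simpa using h₀
      · simpa using h)
  refine h1.mono ?_ Subset.rfl fun e _ => ?_
  · rintro V ⟨f, hf, rfl⟩
    have ht := hf true
    have hb := hf false
    simp only [if_true] at ht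
    simp only [Bool.false_eq_true, if_false] at hb
    refine ⟨f true ∩ f false, ⟨_, ht, _, hb, rfl⟩, fun x hx => ?_⟩
    rw [mem_iInter] at hx
    exact ⟨hx true, hx false⟩
  · simp

/-- glueing two families of weights -/
theorem SmallOn.glue {W : Set (Set X)} {p : E → X} {K : Set E} {ord₁ ord₂ : E → ℕ} {θ : E → ℝ}
    (hθ : ContinuousOn θ K) (hθ0 : ∀ e ∈ K, 0 ≤ θ e) (hθ1 : ∀ e ∈ K, θ e ≤ 1)
    (h₁ : SmallOn W p {e ∈ K | θ e < 1} ord₁) (h₂ : SmallOn W p {e ∈ K | 0 < θ e} ord₂) :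
    SmallOn W p K
      (fun e => if θ e = 0 then ord₁ e else if θ e = 1 then ord₂ e else ord₁ e + ord₂ e + 1) := by
  classical
  obtain ⟨ι, _, w, a1, a2, a3, a4, a5⟩ := h₁
  obtain ⟨κ, _, v, b1, b2, b3, b4, b5⟩ := h₂
  -- the general continuity statement
  have key : ∀ (g ρ : E → ℝ), ContinuousOn ρ K → (∀ e ∈ K, 0 ≤ ρ e) →
      ContinuousOn g {e ∈ K | 0 < ρ e} → (∀ e ∈ K, 0 < ρ e → 0 ≤ g e ∧ g e ≤ 1) →
      ContinuousOn (fun e => if 0 < ρ e then ρ e * g e else 0) K := by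
    intro g ρ hρ hρ0 hg hg1 e he
    rcases (hρ0 e he).lt_or_eq with hpos | hzero
    · have hnhds : {e' | 0 < ρ e'} ∈ 𝓝[K] e := hρ e he (Ioi_mem_nhds hpos)
      have h3 : ContinuousWithinAt (fun e => ρ e * g e) {e ∈ K | 0 < ρ e} e :=
        (((hρ e he).mono fun x hx => hx.1).mul (hg e ⟨he, hpos⟩))
      have h4 : 𝓝[{e ∈ K | 0 < ρ e}] e = 𝓝[K] e := by
        apply le_antisymm (nhdsWithin_mono _ fun x hx => hx.1)
        rw [show {e ∈ K | 0 < ρ e} = K ∩ {e | 0 < ρ e} from rfl, nhdsWithin_inter']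
        exact le_inf le_rfl (Filter.le_principal_iff.2 hnhds)
      unfold ContinuousWithinAt at h3 ⊢
      rw [h4] at h3
      beta_reduce
      rw [if_pos hpos]
      refine h3.congr' ?_
      filter_upwards [hnhds] with x hx
      rw [if_pos hx]
    · unfold ContinuousWithinAt
      beta_reduce
      rw [if_neg (show ¬ 0 < ρ e by rw [← hzero]; exact lt_irrefl _)]
      have h5 : Filter.Tendsto ρ (𝓝[K] e) (𝓝 0) := by
        have := hρ e he
        unfold ContinuousWithinAt at this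
        rwa [← hzero] at this
      refine tendsto_of_tendsto_of_tendsto_of_le_of_le' tendsto_const_nhds h5 ?_ ?_
      · filter_upwards [self_mem_nhdsWithin] with x hx
        split_ifs with h
        · exact mul_nonneg h.le (hg1 x hx h).1
        · exact le_rfl
      · filter_upwards [self_mem_nhdsWithin] with x hx
        split_ifs with h
        · exact mul_le_of_le_one_right h.le (hg1 x hx h).2
        · exact hρ0 x hx
  have wle : ∀ i, ∀ e ∈ K, θ e < 1 → 0 ≤ w i e ∧ w i e ≤ 1 := fun i e he hlt =>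
    ⟨a2 i e ⟨he, hlt⟩, by
      rw [← a3 e ⟨he, hlt⟩]
      exact Finset.single_le_sum (f := fun i => w i e) (fun j _ => a2 j e ⟨he, hlt⟩)
        (Finset.mem_univ i)⟩
  have vle : ∀ i, ∀ e ∈ K, 0 < θ e → 0 ≤ v i e ∧ v i e ≤ 1 := fun i e he hlt =>
    ⟨b2 i e ⟨he, hlt⟩, by
      rw [← b3 e ⟨he, hlt⟩]
      exact Finset.single_le_sum (f := fun i => v i e) (fun j _ => b2 j e ⟨he, hlt⟩)
        (Finset.mem_univ i)⟩
  have w0 : ∀ i e, (if 0 < 1 - θ e then (1 - θ e) * w i e else 0) ≠ 0 → θ e < 1 ∧ w i e ≠ 0 := by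
    intro i e h
    split_ifs at h with h1
    · exact ⟨by linarith, fun h2 => h (by rw [h2, mul_zero])⟩
    · exact absurd rfl h
  have v0 : ∀ i e, (if 0 < θ e then θ e * v i e else 0) ≠ 0 → 0 < θ e ∧ v i e ≠ 0 := by
    intro i e h
    split_ifs at h with h1
    · exact ⟨h1, fun h2 => h (by rw [h2, mul_zero])⟩
    · exact absurd rfl h
  refine ⟨ι ⊕ κ, inferInstance, fun s e => s.elim
    (fun i => if 0 < 1 - θ e then (1 - θ e) * w i e else 0)
    (fun i => if 0 < θ e then θ e * v i e else 0), ?_, ?_, ?_, ?_, ?_⟩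
  · rintro (i | i)
    · refine key (w i) (fun e => 1 - θ e) (continuousOn_const.sub hθ)
        (fun e he => by linarith [hθ1 e he]) ?_ fun e he h => wle i e he (by linarith)
      refine (a1 i).mono fun e he => ⟨he.1, ?_⟩
      have : 0 < 1 - θ e := he.2
      linarith
    · exact key (v i) θ hθ hθ0 (b1 i) fun e he h => vle i e he h
  · rintro (i | i) e he
    · simp only [Sum.elim_inl]
      split_ifs with h
      · exact mul_nonneg h.le (wle i e he (by linarith)).1
      · exact le_rfl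
    · simp only [Sum.elim_inr]
      split_ifs with h
      · exact mul_nonneg h.le (vle i e he h).1
      · exact le_rfl
  · intro e he
    rw [Fintype.sum_sum_type]
    simp only [Sum.elim_inl, Sum.elim_inr]
    have e1 : ∑ i, (if 0 < 1 - θ e then (1 - θ e) * w i e else 0) = 1 - θ e := by
      by_cases h : 0 < 1 - θ e
      · simp only [if_pos h]
        rw [← Finset.mul_sum, a3 e ⟨he, by linarith⟩, mul_one]
      · simp only [if_neg h]
        rw [Finset.sum_const_zero]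
        linarith [hθ1 e he]
    have e2 : ∑ i, (if 0 < θ e then θ e * v i e else 0) = θ e := by
      by_cases h : 0 < θ e
      · simp only [if_pos h]
        rw [← Finset.mul_sum, b3 e ⟨he, h⟩, mul_one]
      · simp only [if_neg h]
        rw [Finset.sum_const_zero]
        linarith [hθ0 e he]
    rw [e1, e2]
    ring
  · rintro (i | i)
    · obtain ⟨V, hV, hV2⟩ := a4 i
      exact ⟨V, hV, fun e he hne => by
        obtain ⟨h1, h2⟩ := w0 i e hne
        exact hV2 e ⟨he, h1⟩ h2⟩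
    · obtain ⟨V, hV, hV2⟩ := b4 i
      exact ⟨V, hV, fun e he hne => by
        obtain ⟨h1, h2⟩ := v0 i e hne
        exact hV2 e ⟨he, h1⟩ h2⟩
  · intro e he
    have hsub : {s : ι ⊕ κ | Sum.elim (fun i => if 0 < 1 - θ e then (1 - θ e) * w i e else 0)
        (fun i => if 0 < θ e then θ e * v i e else 0) s ≠ 0} ⊆
        Sum.inl '' {i | θ e < 1 ∧ w i e ≠ 0} ∪ Sum.inr '' {i | 0 < θ e ∧ v i e ≠ 0} := by
      rintro (i | i) hs
      · exact Or.inl ⟨i, w0 i e hs, rfl⟩
      · exact Or.inr ⟨i, v0 i e hs, rfl⟩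
    have hcard := (Set.ncard_le_ncard hsub (Set.toFinite _)).trans (Set.ncard_union_le _ _)
    rw [Set.ncard_image_of_injective _ Sum.inl_injective,
      Set.ncard_image_of_injective _ Sum.inr_injective] at hcard
    refine hcard.trans ?_
    have c1 : θ e < 1 → {i | θ e < 1 ∧ w i e ≠ 0}.ncard ≤ ord₁ e + 1 := fun h =>
      (Set.ncard_le_ncard (fun i hi => hi.2) (Set.toFinite _)).trans (a5 e ⟨he, h⟩)
    have c2 : 0 < θ e → {i | 0 < θ e ∧ v i e ≠ 0}.ncard ≤ ord₂ e + 1 := fun h =>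
      (Set.ncard_le_ncard (fun i hi => hi.2) (Set.toFinite _)).trans (b5 e ⟨he, h⟩)
    beta_reduce
    split_ifs with h0 h1
    · have : {i | 0 < θ e ∧ v i e ≠ 0} = ∅ := by
        ext i
        simp [h0]
      rw [this, Set.ncard_empty, add_zero]
      exact c1 (by rw [h0]; exact one_pos)
    · have : {i | θ e < 1 ∧ w i e ≠ 0} = ∅ := by
        ext i
        simp [h1]
      rw [this, Set.ncard_empty, zero_add]
      exact c2 (by rw [h1]; exact one_pos)
    · have d1 := c1 (lt_of_le_of_ne (hθ1 e he) h1)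
      have d2 := c2 (lt_of_le_of_ne (hθ0 e he) (Ne.symm h0))
      omega

end Join

end Vale.Agent.P093.U
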