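import Vale.Agent.P251.St.ToFunctor
import Vale.Agent.P251.I.CofTriangle

/-!
# P093, part U, block U7: extraction of honest maps from the stable homotopy category

`extractF` : let `i : A ⟶ Y` be a cofibration of finite cell spaces which is zero in `T` and
`ι : K ⟶ Y` an isomorphism in `T`. Then, after `n` suspensions, there is an honest pointed map
`r : Y ⟶ K` which is strictly zero on `A` and such that `ι ≫ r` is homotopic to the identity.

`extract` : the same statement in the language of `P251/St/Base.lean`.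
-/

open CategoryTheory MonoidalCategory OnePoint Topology Limits Pretriangulated

universe v u

namespace Vale.Agent.P093.U

open Vale.Agent.P251 Vale.Agent.P251.G Vale.Agent.P251.G.LC Vale.Agent.P251.I
  Vale.Agent.P251.T

section functor

variable {T : Type u} [Category.{v} T] [Preadditive T] [HasZeroObject T]
    [HasShift T ℤ] [∀ n : ℤ, (shiftFunctor T n).Additive] [Pretriangulated T]
    [MonoidalCategory T] [SymmetricCategory T] [TensorTriangulated T] (F : SpaceFunctor T)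

include F

/-- `S (f × id)` in terms of `S f`. -/
theorem map_whiskerRight_eq {X Y : FCat} (f : X ⟶ Y) (Z : FCat) :
    F.S.map (f ▷ Z) = (Functor.Monoidal.μIso F.S X Z).inv ≫ (F.S.map f ▷ F.S.obj Z) ≫
      (Functor.Monoidal.μIso F.S Y Z).hom := by
  rw [Iso.eq_inv_comp]
  exact (Functor.LaxMonoidal.μ_natural_left F.S f Z).symm

/-- one suspension of the extraction: `r` on `Y × ℝⁿ`, strictly zero on `A × ℝⁿ`, and equal to
the inverse of `ι` in `T` -/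
theorem extractF₀ {A Y K : FCat} (i : A ⟶ Y) (hi : Cofib i.hom) (ι : K ⟶ Y)
    [hι : IsIso (F.S.map ι)] (h0 : F.S.map i = 0) :
    ∃ (n : ℕ) (r : Y ⊗ SphF n ⟶ K ⊗ SphF n), i.hom ▷ Sph n ≫ r.hom = 0 ∧
      F.S.map (ι ▷ SphF n ≫ r) = F.S.map (𝟙 _) := by
  obtain ⟨ιi, h1⟩ : ∃ ιi : F.S.obj Y ⟶ F.S.obj K, F.S.map ι ≫ ιi = 𝟙 _ :=
    ⟨inv (F.S.map ι), IsIso.hom_inv_id _⟩
  obtain ⟨g, hg⟩ : ∃ g : F.S.obj (cofF i hi) ⟶ F.S.obj K,
      ιi = F.S.map (cofMapF i hi) ≫ g :=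
    Triangle.yoneda_exact₂ _ (F.cof_distinguished i hi) ιi (by
      change F.S.map i ≫ _ = 0
      rw [h0, zero_comp])
  obtain ⟨n, h, hh⟩ := F.full g
  refine ⟨n, cofMapF i hi ▷ SphF n ≫ h, ?_, ?_⟩
  · change i.hom ▷ Sph n ≫ (cofMap i.hom ▷ Sph n ≫ h.hom) = 0
    rw [← MonoidalCategory.comp_whiskerRight_assoc, comp_cofMap]
    have h1 : (0 : A.obj ⟶ cof i.hom) ▷ Sph n = 0 := by
      apply tensor_ext
      intro x y
      rw [app_whiskerRight_smash]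
      change LC.smash ∞ _ = ∞
      rw [smash_infty_left]
    rw [h1, zero_comp]
  · rw [Functor.map_comp, Functor.map_comp, map_whiskerRight_eq, map_whiskerRight_eq, hh,
      CategoryTheory.Functor.map_id]
    simp only [Category.assoc, Iso.hom_inv_id_assoc]
    rw [← MonoidalCategory.comp_whiskerRight_assoc, ← MonoidalCategory.comp_whiskerRight_assoc,
      Category.assoc, ← hg, h1, MonoidalCategory.id_whiskerRight, Category.id_comp,
      Iso.inv_hom_id]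

/-- **Extraction.** -/
theorem extractF {A Y K : FCat} (i : A ⟶ Y) (hi : Cofib i.hom) (ι : K ⟶ Y)
    [hι : IsIso (F.S.map ι)] (h0 : F.S.map i = 0) :
    ∃ (n : ℕ) (r : Y ⊗ SphF n ⟶ K ⊗ SphF n), i.hom ▷ Sph n ≫ r.hom = 0 ∧
      Homotopic ((ι ▷ SphF n ≫ r).hom) (𝟙 _) := by
  obtain ⟨n, r, hr0, hr⟩ := extractF₀ F i hi ι h0
  obtain ⟨m, H⟩ := F.faithful _ _ hr
  let e : Sph n ⊗ Sph m ≅ Sph (n + m) := sphTensor n m
  let rr : Y.obj ⊗ Sph (n + m) ⟶ K.obj ⊗ Sph (n + m) :=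
    (Y.obj ◁ e.inv) ≫ (α_ Y.obj (Sph n) (Sph m)).inv ≫ (r.hom ▷ Sph m) ≫
      (α_ K.obj (Sph n) (Sph m)).hom ≫ (K.obj ◁ e.hom)
  refine ⟨n + m, FCat.hom (X := Y ⊗ SphF (n + m)) (Y := K ⊗ SphF (n + m)) rr, ?_, ?_⟩
  · change i.hom ▷ Sph (n + m) ≫ rr = 0
    have h1 : i.hom ▷ Sph (n + m) ≫ (Y.obj ◁ e.inv) ≫ (α_ Y.obj (Sph n) (Sph m)).inv =
        (A.obj ◁ e.inv) ≫ (α_ A.obj (Sph n) (Sph m)).inv ≫ ((i.hom ▷ Sph n) ▷ Sph m) := by
      rw [← whisker_exchange_assoc]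
      simp
    have h2 : (0 : A.obj ⊗ Sph n ⟶ K.obj ⊗ Sph n) ▷ Sph m = 0 := by
      apply tensor_ext
      intro x y
      rw [app_whiskerRight_smash]
      change LC.smash ∞ _ = ∞
      rw [smash_infty_left]
    calc i.hom ▷ Sph (n + m) ≫ rr
        = (i.hom ▷ Sph (n + m) ≫ (Y.obj ◁ e.inv) ≫ (α_ Y.obj (Sph n) (Sph m)).inv) ≫
          (r.hom ▷ Sph m) ≫ (α_ K.obj (Sph n) (Sph m)).hom ≫ (K.obj ◁ e.hom) := by
          simp [rr]
      _ = (A.obj ◁ e.inv) ≫ (α_ A.obj (Sph n) (Sph m)).inv ≫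
          ((i.hom ▷ Sph n ≫ r.hom) ▷ Sph m) ≫
            (α_ K.obj (Sph n) (Sph m)).hom ≫ (K.obj ◁ e.hom) := by
          rw [h1]
          simp
      _ = 0 := by
          rw [hr0, h2, zero_comp, comp_zero, comp_zero]
  · change Homotopic (ι.hom ▷ Sph (n + m) ≫ rr) (𝟙 (K.obj ⊗ Sph (n + m)))
    have h1 : ι.hom ▷ Sph (n + m) ≫ (Y.obj ◁ e.inv) ≫ (α_ Y.obj (Sph n) (Sph m)).inv =
        (K.obj ◁ e.inv) ≫ (α_ K.obj (Sph n) (Sph m)).inv ≫ ((ι.hom ▷ Sph n) ▷ Sph m) := by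
      rw [← whisker_exchange_assoc]
      simp
    have h2 : ι.hom ▷ Sph (n + m) ≫ rr = (K.obj ◁ e.inv) ≫ (α_ K.obj (Sph n) (Sph m)).inv ≫
          ((ι ▷ SphF n ≫ r).hom ▷ Sph m) ≫ (α_ K.obj (Sph n) (Sph m)).hom ≫
            (K.obj ◁ e.hom) := by
      calc ι.hom ▷ Sph (n + m) ≫ rr
          = (ι.hom ▷ Sph (n + m) ≫ (Y.obj ◁ e.inv) ≫ (α_ Y.obj (Sph n) (Sph m)).inv) ≫
            (r.hom ▷ Sph m) ≫ (α_ K.obj (Sph n) (Sph m)).hom ≫ (K.obj ◁ e.hom) := by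
            simp [rr]
        _ = _ := by
            rw [h1]
            have : (ι ▷ SphF n ≫ r).hom = ι.hom ▷ Sph n ≫ r.hom := rfl
            rw [this]
            simp
    rw [h2]
    have h3 : (𝟙 (K.obj ⊗ Sph (n + m))) = (K.obj ◁ e.inv) ≫ (α_ K.obj (Sph n) (Sph m)).inv ≫
          ((𝟙 (K ⊗ SphF n) : K ⊗ SphF n ⟶ K ⊗ SphF n).hom ▷ Sph m) ≫
            (α_ K.obj (Sph n) (Sph m)).hom ≫ (K.obj ◁ e.hom) := by
      have : (𝟙 (K ⊗ SphF n) : K ⊗ SphF n ⟶ K ⊗ SphF n).hom ▷ Sph m =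
          𝟙 ((K.obj ⊗ Sph n) ⊗ Sph m) := MonoidalCategory.id_whiskerRight _ _
      rw [this, Category.id_comp, Iso.inv_hom_id_assoc, ← MonoidalCategory.whiskerLeft_comp,
        e.inv_hom_id, MonoidalCategory.whiskerLeft_id]
    rw [h3]
    exact ((H.comp_right _).comp_left _).comp_left _

end functor

/-! ### The statement layer -/

section st

open St (Space Map Rn SHCat Susp toLC ofLC toHom ofHom)

/-- **Extraction**, for a general finite cell space `K` in place of a sphere. -/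
theorem extractK {T : SHCat} (F : Susp T) {A Y K : Space} (i : Map A Y) (hi : St.Cofib i)
    (hA : St.FC A) (hY : St.FC Y) (hK : St.FC K) (ι : Map K Y) (hι : IsIso (F.map ι))
    (h0 : F.map i = 0) :
    ∃ (n : ℕ) (r : Map (Y.prod (Rn n)) (K.prod (Rn n)))
      (ι' : Map (K.prod (Rn n)) (Y.prod (Rn n))),
      (∀ x v, ι'.toFun (St.smash x v) = St.smash (ι.toFun x) v) ∧
      (∀ a v, r.toFun (St.smash (i.toFun a) v) = ∞) ∧
      St.Homotopic (r.toFun ∘ ι'.toFun) id := by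
  have : IsIso (F.toSpaceFunctor.S.map (X := ⟨toLC K, St.fc_toLC hK⟩)
      (Y := ⟨toLC Y, St.fc_toLC hY⟩) (FCat.hom (toHom ι))) := hι
  obtain ⟨n, r, h1, h2⟩ := extractF F.toSpaceFunctor
    (A := ⟨toLC A, St.fc_toLC hA⟩) (Y := ⟨toLC Y, St.fc_toLC hY⟩) (K := ⟨toLC K, St.fc_toLC hK⟩)
    (FCat.hom (toHom i)) ((St.cofib_iff i).mp hi) (FCat.hom (toHom ι)) h0
  refine ⟨n, ofHom (X := Y.prod (Rn n)) (Y := K.prod (Rn n)) r.hom,
    ofHom (X := K.prod (Rn n)) (Y := Y.prod (Rn n)) (toHom ι ▷ LC.Sph n), ?_, ?_, ?_⟩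
  · intro x v
    exact app_whiskerRight_smash (toHom ι) (LC.Sph n) x v
  · intro a v
    have h4 : toHom i ▷ LC.Sph n ≫ r.hom = 0 := h1
    have h3 : app (toHom i ▷ LC.Sph n ≫ r.hom) (LC.smash a v) = ∞ := by
      rw [h4]
      rfl
    rw [app_comp, app_whiskerRight_smash] at h3
    exact h3
  · exact (St.homotopic_iff' (X := K.prod (Rn n)) (Y := K.prod (Rn n))
      (ofHom (X := K.prod (Rn n)) (Y := K.prod (Rn n)) (toHom ι ▷ LC.Sph n ≫ r.hom))
      ⟨id, continuous_id, rfl⟩).mpr h2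

/-- **Extraction** (block U7): if a cofibration `A → Y` is zero in the stable homotopy category
and the sphere `ι : (ℝᵏ)⁺ → Y⁺` is an isomorphism there, then after `n` suspensions there is an
honest map `r : Y⁺ → (ℝᵏ)⁺`, strictly `∞` on `A`, with `r ∘ ι` homotopic to the identity. -/
theorem extract {T : SHCat} (F : Susp T) {A Y : Space} (i : Map A Y) (hi : St.Cofib i)
    (hA : St.FC A) (hY : St.FC Y) {k : ℕ} (ι : Map (Rn k) Y) (hι : IsIso (F.map ι))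
    (h0 : F.map i = 0) :
    ∃ (n : ℕ) (r : Map (Y.prod (Rn n)) ((Rn k).prod (Rn n)))
      (ι' : Map ((Rn k).prod (Rn n)) (Y.prod (Rn n))),
      (∀ x v, ι'.toFun (St.smash x v) = St.smash (ι.toFun x) v) ∧
      (∀ a v, r.toFun (St.smash (i.toFun a) v) = ∞) ∧
      St.Homotopic (r.toFun ∘ ι'.toFun) id :=
  extractK F i hi hA hY (St.FC.sph k) ι hι h0

end st

end Vale.Agent.P093.U
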