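import Vale.Agent.P093.U.Defs
import Vale.Agent.P093.U.Extract
import Mathlib.Topology.Algebra.Module.FiniteDimension

/-!
# P093, part U: packaging of the spaces of `LR`

* `cylSpace C u hu` : the space `Y = {(c, l) : l ≥ 0 or c ∈ im u}` (closed in `C × ℝ`);
* `cylPow C u hu M` : the space `Y^M`;
* `cylFil C u hu M s` : the closed subspace `F_s^M` of the points of `Y^M` with at least `s`
  coordinates in `Y₀ = {l ≤ 0}`, with its inclusion `cylFilMap` in `Y^M`;
* `cylUnit C u hu M` : the inclusion `(R^t × R)^M → Y^M`, from the space `cylSph t M`;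
* `cylUnitR C u hu M` : the same, from `Rn (cylDim t M)`.

`lrat_of_extracted` : the conclusion of the theorem `extract` for these maps gives `LRat`.
`lrat_of_map_zero` : if `F_s^M → Y^M` is zero in `T` and the unit is invertible in `T`, then
`LRat C u M s n` for some `n`.
-/

open OnePoint Set Topology
open Vale.Agent.P251.St (Space Map Homotopic Rn smash IsHtpy)

namespace Vale.Agent.P093.U

/-- a closed embedding as a pointed map of one-point compactifications -/
def closedMap {A B : Space} (f : A.carrier → B.carrier) (hf : IsClosedEmbedding f) : Map A B where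
  toFun := OnePoint.map f
  cont := OnePoint.continuous_map hf.continuous (by
    rw [Filter.coclosedCompact_eq_cocompact, Filter.coclosedCompact_eq_cocompact]
    exact hf.tendsto_cocompact)
  map_infty := rfl

@[simp]
theorem closedMap_some {A B : Space} (f : A.carrier → B.carrier) (hf : IsClosedEmbedding f)
    (a : A.carrier) : (closedMap f hf).toFun (OnePoint.some a) = OnePoint.some (f a) := rfl

/-- a homeomorphism as a pointed map of one-point compactifications -/
def homeoMap {A B : Space} (e : A.carrier ≃ₜ B.carrier) : Map A B :=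
  closedMap e e.isClosedEmbedding

@[simp]
theorem homeoMap_some {A B : Space} (e : A.carrier ≃ₜ B.carrier) (a : A.carrier) :
    (homeoMap e).toFun (OnePoint.some a) = OnePoint.some (e a) := rfl

theorem homeoMap_symm_apply {A B : Space} (e : A.carrier ≃ₜ B.carrier) (a : A.Pt) :
    (homeoMap e.symm).toFun ((homeoMap e).toFun a) = a := by
  induction a using OnePoint.rec with
  | infty => rfl
  | coe a => rw [homeoMap_some, homeoMap_some, e.symm_apply_apply]

section Cyl

variable {t : ℕ} (C : Space) (u : (Fin t → ℝ) → C.carrier)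

theorem isClosed_cylSet (hu : IsClosedEmbedding u) : IsClosed (cylSet C u) := by
  have h1 : IsClosed {q : C.carrier × ℝ | 0 ≤ q.2} := isClosed_le continuous_const continuous_snd
  have h2 : IsClosed {q : C.carrier × ℝ | q.1 ∈ range u} :=
    hu.isClosed_range.preimage continuous_fst
  exact h1.union h2

theorem locallyCompactSpace_cylSet (hu : IsClosedEmbedding u) :
    LocallyCompactSpace (cylSet C u) :=
  (isClosed_cylSet C u hu).isClosedEmbedding_subtypeVal.locallyCompactSpace

/-- the space `Y = {(c, l) : l ≥ 0 or c ∈ im u}` -/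
abbrev cylSpace (hu : IsClosedEmbedding u) : Space :=
  @Space.mk (cylSet C u) inferInstance (locallyCompactSpace_cylSet C u hu) inferInstance

/-- the space `Y^M` -/
abbrev cylPow (hu : IsClosedEmbedding u) (M : ℕ) : Space :=
  @Space.mk (Fin M → cylSet C u) inferInstance
    (haveI := locallyCompactSpace_cylSet C u hu; inferInstance) inferInstance

/-- the closed subset `F_s^M` of `Y^M` -/
def filSet (M s : ℕ) : Set (Fin M → cylSet C u) := {y | s ≤ {i | (y i).1.2 ≤ 0}.ncard}

theorem isClosed_filSet (M s : ℕ) : IsClosed (filSet C u M s) := by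
  have h : filSet C u M s =
      ⋃ I ∈ {I : Set (Fin M) | s ≤ I.ncard}, ⋂ i ∈ I, {y | (y i).1.2 ≤ 0} := by
    ext y
    simp only [filSet, mem_ofPred_eq, mem_iUnion, mem_iInter]
    constructor
    · intro h
      exact ⟨{i | (y i).1.2 ≤ 0}, h, fun i hi => hi⟩
    · rintro ⟨I, hI, h⟩
      exact hI.trans (ncard_le_ncard (fun i hi => h i hi) (toFinite _))
  rw [h]
  refine (toFinite _).isClosed_biUnion fun I _ => isClosed_biInter fun i _ => ?_
  exact isClosed_le ((continuous_snd.comp continuous_subtype_val).comp (continuous_apply i))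
    continuous_const

/-- the space `F_s^M` -/
abbrev cylFil (hu : IsClosedEmbedding u) (M s : ℕ) : Space :=
  @Space.mk (filSet C u M s) inferInstance
    (haveI : LocallyCompactSpace (Fin M → cylSet C u) := (cylPow C u hu M).lc
     (isClosed_filSet C u M s).isClosedEmbedding_subtypeVal.locallyCompactSpace) inferInstance

/-- the inclusion of `F_s^M` in `Y^M` -/
def cylFilMap (hu : IsClosedEmbedding u) (M s : ℕ) : Map (cylFil C u hu M s) (cylPow C u hu M) :=
  closedMap (A := cylFil C u hu M s) (B := cylPow C u hu M) Subtype.val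
    (isClosed_filSet C u M s).isClosedEmbedding_subtypeVal

/-- the inclusion `R^t × R → Y` -/
def cylIn : (Fin t → ℝ) × ℝ → cylSet C u := fun q => ⟨(u q.1, q.2), Or.inr ⟨q.1, rfl⟩⟩

theorem isClosedEmbedding_cylIn (hu : IsClosedEmbedding u) : IsClosedEmbedding (cylIn C u) := by
  have h : IsClosedEmbedding (Prod.map u id : (Fin t → ℝ) × ℝ → C.carrier × ℝ) :=
    hu.prodMap IsClosedEmbedding.id
  exact IsClosedEmbedding.of_comp (g := (Subtype.val : cylSet C u → C.carrier × ℝ))
    IsEmbedding.subtypeVal h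

/-- the space `(R^t × R)^M` -/
abbrev cylSph (t M : ℕ) : Space := ⟨Fin M → (Fin t → ℝ) × ℝ⟩

/-- the inclusion `(R^t × R)^M → Y^M` -/
def cylUnit (hu : IsClosedEmbedding u) (M : ℕ) : Map (cylSph t M) (cylPow C u hu M) :=
  closedMap (A := cylSph t M) (B := cylPow C u hu M) (Pi.map fun _ => cylIn C u)
    (IsClosedEmbedding.piMap fun _ => isClosedEmbedding_cylIn C u hu)

/-- the dimension of `(R^t × R)^M` -/
noncomputable def cylDim (t M : ℕ) : ℕ := Module.finrank ℝ (Fin M → (Fin t → ℝ) × ℝ)

theorem cylDim_eq (t M : ℕ) : cylDim t M = M * (t + 1) := by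
  rw [cylDim, Module.finrank_pi_fintype]
  simp

/-- the homeomorphism `(R^t × R)^M ≃ R^{cylDim t M}` -/
noncomputable def cylHomeo (t M : ℕ) : (Fin M → (Fin t → ℝ) × ℝ) ≃ₜ (Fin (cylDim t M) → ℝ) :=
  (ContinuousLinearEquiv.ofFinrankEq (𝕜 := ℝ) (E := Fin M → (Fin t → ℝ) × ℝ)
    (F := Fin (cylDim t M) → ℝ) (by rw [Module.finrank_fin_fun]; rfl)).toHomeomorph

/-- the inclusion `R^{M(t+1)} = (R^t × R)^M → Y^M` -/
noncomputable def cylUnitR (hu : IsClosedEmbedding u) (M : ℕ) :
    Map (Rn (cylDim t M)) (cylPow C u hu M) :=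
  closedMap (A := Rn (cylDim t M)) (B := cylPow C u hu M)
    ((Pi.map fun _ => cylIn C u) ∘ (cylHomeo t M).symm)
    ((IsClosedEmbedding.piMap fun _ => isClosedEmbedding_cylIn C u hu).comp
      (cylHomeo t M).symm.isClosedEmbedding)

/-- The conclusion of `extract` for `F_s^M → Y^M` and the unit gives `LRat`. -/
theorem lrat_of_extracted (hu : IsClosedEmbedding u) (M s : ℕ)
    (h : ∃ (n : ℕ) (r : Map ((cylPow C u hu M).prod (Rn n)) ((Rn (cylDim t M)).prod (Rn n)))
      (ι' : Map ((Rn (cylDim t M)).prod (Rn n)) ((cylPow C u hu M).prod (Rn n))),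
      (∀ x v, ι'.toFun (smash x v) = smash ((cylUnitR C u hu M).toFun x) v) ∧
      (∀ a v, r.toFun (smash ((cylFilMap C u hu M s).toFun a) v) = ∞) ∧
      Homotopic (r.toFun ∘ ι'.toFun) id) :
    ∃ n, LRat C u M s n := by
  obtain ⟨n, r, ι', h1, h2, H, hH, H0, H1⟩ := h
  let e : ((cylSph t M).prod (Rn n)).carrier ≃ₜ ((Rn (cylDim t M)).prod (Rn n)).carrier :=
    (cylHomeo t M).prodCongr (Homeomorph.refl _)
  refine ⟨n, fun x => (homeoMap e.symm).toFun (r.toFun x), (homeoMap e.symm).cont.comp r.cont,
    ?_, ?_, fun τ x => (homeoMap e.symm).toFun (H (unitInterval.symm τ) ((homeoMap e).toFun x)),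
    ?_, ?_, ?_, ?_⟩
  · change (homeoMap e.symm).toFun (r.toFun ∞) = ∞
    rw [r.map_infty]
    exact (homeoMap e.symm).map_infty
  · intro y v hy
    have h3 := h2 (OnePoint.some ⟨y, hy⟩) (OnePoint.some v)
    have h4 : r.toFun (OnePoint.some (y, v)) = ∞ := h3
    change (homeoMap e.symm).toFun (r.toFun (OnePoint.some (y, v))) = ∞
    rw [h4]
    exact (homeoMap e.symm).map_infty
  · exact (homeoMap e.symm).cont.comp (hH.1.comp
      ((unitInterval.continuous_symm.comp continuous_fst).prodMk
        ((homeoMap e).cont.comp continuous_snd)))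
  · intro τ
    change (homeoMap e.symm).toFun (H (unitInterval.symm τ) ((homeoMap e).toFun ∞)) = ∞
    rw [(homeoMap e).map_infty, hH.2]
    exact (homeoMap e.symm).map_infty
  · intro x
    change (homeoMap e.symm).toFun (H (unitInterval.symm 0) ((homeoMap e).toFun x)) = x
    rw [unitInterval.symm_zero, H1]
    exact homeoMap_symm_apply e x
  · intro c v
    change (homeoMap e.symm).toFun (H (unitInterval.symm 1)
      ((homeoMap e).toFun (OnePoint.some (c, v)))) = (homeoMap e.symm).toFun _
    rw [unitInterval.symm_one, H0]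
    congr 1
    have h5 := h1 (OnePoint.some ((cylHomeo t M) c)) (OnePoint.some v)
    have h6 : (homeoMap e).toFun (OnePoint.some (c, v)) =
        smash (X := Rn (cylDim t M)) (Y := Rn n) (OnePoint.some ((cylHomeo t M) c))
          (OnePoint.some v) := rfl
    change r.toFun (ι'.toFun ((homeoMap e).toFun (OnePoint.some (c, v)))) = _
    rw [h6, h5]
    have h7 : (cylUnitR C u hu M).toFun (OnePoint.some ((cylHomeo t M) c)) =
        OnePoint.some (fun i => cylIn C u (c i)) := by
      change OnePoint.some ((Pi.map fun _ => cylIn C u) ((cylHomeo t M).symm ((cylHomeo t M) c))) = _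
      rw [(cylHomeo t M).symm_apply_apply]
      rfl
    rw [h7]
    rfl

theorem hequiv_homeo {A B : Space} (e : A.carrier ≃ₜ B.carrier) :
    Vale.Agent.P251.St.HEquiv A B := by
  refine ⟨homeoMap e, homeoMap e.symm, ?_, ?_⟩
  · refine ⟨fun _ => id, ⟨continuous_snd, fun _ => rfl⟩, ?_, rfl⟩
    funext a
    exact (homeoMap_symm_apply e a).symm
  · refine ⟨fun _ => id, ⟨continuous_snd, fun _ => rfl⟩, ?_, rfl⟩
    funext a
    exact (homeoMap_symm_apply e.symm a).symm

theorem fc_cylSph (t M : ℕ) : Vale.Agent.P251.St.FC (cylSph t M) :=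
  (Vale.Agent.P251.St.FC.sph (cylDim t M)).hequiv (hequiv_homeo (cylHomeo t M).symm)

theorem isIso_map_homeo {T : Vale.Agent.P251.St.SHCat} (F : Vale.Agent.P251.St.Susp T)
    {A B : Space} (e : A.carrier ≃ₜ B.carrier) (hA : Vale.Agent.P251.St.FC A) :
    CategoryTheory.IsIso (F.map (homeoMap e)) := by
  have hB : Vale.Agent.P251.St.FC B := hA.hequiv (hequiv_homeo e)
  refine ⟨F.map (homeoMap e.symm), ?_, ?_⟩
  · exact (F.map_comp (homeoMap e) (homeoMap e.symm) ⟨id, continuous_id, rfl⟩ hA hB hA
      (funext fun a => (homeoMap_symm_apply e a).symm)).symm.trans (F.map_id _ hA rfl)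
  · exact (F.map_comp (homeoMap e.symm) (homeoMap e) ⟨id, continuous_id, rfl⟩ hB hA hB
      (funext fun a => (homeoMap_symm_apply e.symm a).symm)).symm.trans (F.map_id _ hB rfl)

/-- it suffices that `(R^t × R)^M → Y^M` is invertible in `T` -/
theorem isIso_map_cylUnitR {T : Vale.Agent.P251.St.SHCat} (F : Vale.Agent.P251.St.Susp T)
    (hu : IsClosedEmbedding u) (M : ℕ) (hY : Vale.Agent.P251.St.FC (cylPow C u hu M))
    (h : CategoryTheory.IsIso (F.map (cylUnit C u hu M))) :
    CategoryTheory.IsIso (F.map (cylUnitR C u hu M)) := by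
  have h1 : CategoryTheory.IsIso
      (F.map (homeoMap (A := Rn (cylDim t M)) (B := cylSph t M) (cylHomeo t M).symm)) :=
    isIso_map_homeo F _ (Vale.Agent.P251.St.FC.sph _)
  have h2 : F.map (cylUnitR C u hu M) =
      CategoryTheory.CategoryStruct.comp
        (F.map (homeoMap (A := Rn (cylDim t M)) (B := cylSph t M) (cylHomeo t M).symm))
        (F.map (cylUnit C u hu M)) := by
    refine F.map_comp _ _ _ (Vale.Agent.P251.St.FC.sph _) (fc_cylSph t M) hY ?_
    funext a
    induction a using OnePoint.rec with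
    | infty => rfl
    | coe a => rfl
  rw [h2]
  infer_instance

/-- If the inclusion `F_s^M → Y^M` is zero in `T`, then `LRat C u M s n` for some `n`. -/
theorem lrat_of_map_zero {T : Vale.Agent.P251.St.SHCat} (F : Vale.Agent.P251.St.Susp T)
    (hu : IsClosedEmbedding u) (M s : ℕ)
    (hi : Vale.Agent.P251.St.Cofib (cylFilMap C u hu M s))
    (hA : Vale.Agent.P251.St.FC (cylFil C u hu M s))
    (hY : Vale.Agent.P251.St.FC (cylPow C u hu M))
    (hι : CategoryTheory.IsIso (F.map (cylUnitR C u hu M)))
    (h0 : F.map (cylFilMap C u hu M s) = 0) : ∃ n, LRat C u M s n :=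
  lrat_of_extracted C u hu M s (extract F (cylFilMap C u hu M s) hi hA hY (cylUnitR C u hu M) hι h0)

end Cyl

end Vale.Agent.P093.U
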