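import Vale.Agent.P093.U.Lift
import Vale.Agent.P093.U.Stair

/-!
# P093, part U, block U6: windows

From a lift for one window and the retraction `r` of `LRat` for `M` windows we make a stable
section of the nerve of the cover of `M` windows:
`g (x, (c_i), v) = r ((b (h^(i N₀) x, c_i))_i, v)`.
-/

open OnePoint Set Filter Topology
open Vale.Agent.P251.St (Space Map Homotopic)
open Vale.Agent.P251.G.LC (smash continuous_smash)

namespace Vale.Agent.P093.U

namespace WinAux

section tup

variable {J : Type*} [Fintype J] {Y : Type*} [TopologicalSpace Y]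

open scoped Classical in
/-- the canonical map `∏ Y⁺ → (∏ Y)⁺` -/
noncomputable def tup (y : J → OnePoint Y) : OnePoint (J → Y) :=
  if h : ∃ z : J → Y, y = fun j => (z j : OnePoint Y) then ((h.choose : J → Y) : OnePoint (J → Y))
  else ∞

omit [Fintype J] [TopologicalSpace Y] in
theorem tup_coe (z : J → Y) : tup (fun j => (z j : OnePoint Y)) = (z : OnePoint (J → Y)) := by
  have h : ∃ z' : J → Y, (fun j => (z j : OnePoint Y)) = fun j => (z' j : OnePoint Y) := ⟨z, rfl⟩
  rw [tup, dif_pos h]
  congr 1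
  funext j
  exact (OnePoint.coe_injective (congrFun h.choose_spec j)).symm

omit [Fintype J] [TopologicalSpace Y] in
theorem tup_eq_coe {y : J → OnePoint Y} {z : J → Y} (h : tup y = (z : OnePoint (J → Y))) :
    y = fun j => (z j : OnePoint Y) := by
  by_cases hy : ∃ z' : J → Y, y = fun j => (z' j : OnePoint Y)
  · obtain ⟨z', rfl⟩ := hy
    rw [tup_coe] at h
    rw [OnePoint.coe_injective h]
  · rw [tup, dif_neg hy] at h
    exact absurd h (OnePoint.infty_ne_coe _)

omit [Fintype J] [TopologicalSpace Y] in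
theorem tup_infty {y : J → OnePoint Y} {j : J} (h : y j = ∞) : tup y = ∞ := by
  by_contra hne
  obtain ⟨z, hz⟩ := OnePoint.ne_infty_iff_exists.mp hne
  have := congrFun (tup_eq_coe hz.symm) j
  rw [h] at this
  exact OnePoint.infty_ne_coe _ this

theorem continuous_tup [T2Space Y] : Continuous (tup : (J → OnePoint Y) → OnePoint (J → Y)) := by
  rw [continuous_iff_continuousAt]
  intro y
  by_cases hy : ∃ z : J → Y, y = fun j => (z j : OnePoint Y)
  · obtain ⟨z, rfl⟩ := hy
    have hJ : IsOpenEmbedding (fun (z : J → Y) (j : J) => (z j : OnePoint Y)) :=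
      IsOpenEmbedding.piMap (B := fun _ : J => OnePoint Y)
        (f := fun (_ : J) (z : Y) => (z : OnePoint Y)) (fun _ => OnePoint.isOpenEmbedding_coe)
    refine (hJ.continuousAt_iff (x := z)).1 ?_
    have : (tup ∘ fun (z : J → Y) (j : J) => (z j : OnePoint Y)) =
        fun z : J → Y => (z : OnePoint (J → Y)) := funext tup_coe
    rw [this]
    exact OnePoint.continuous_coe.continuousAt
  · have hne : ∃ j, y j = ∞ := by
      by_contra hcon
      push Not at hcon
      choose z hz using fun j => OnePoint.ne_infty_iff_exists.mp (hcon j)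
      exact hy ⟨z, funext fun j => (hz j).symm⟩
    obtain ⟨j, hj⟩ := hne
    rw [ContinuousAt, tup_infty hj]
    intro S hS
    obtain ⟨V, hVS, hV, hmV⟩ := mem_nhds_iff.mp hS
    rw [OnePoint.isOpen_iff_of_mem hmV] at hV
    obtain ⟨_, hK⟩ := hV
    have hKj : IsCompact ((fun z : J → Y => z j) '' (((↑) : (J → Y) → OnePoint (J → Y)) ⁻¹' V)ᶜ) :=
      hK.image (continuous_apply j)
    have hcl : IsClosed ((↑) '' ((fun z : J → Y => z j) ''
        (((↑) : (J → Y) → OnePoint (J → Y)) ⁻¹' V)ᶜ) : Set (OnePoint Y)) := by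
      rw [OnePoint.isClosed_image_coe]
      exact ⟨hKj.isClosed, hKj⟩
    have hnb : {y' : J → OnePoint Y | y' j ∉ ((↑) '' ((fun z : J → Y => z j) ''
        (((↑) : (J → Y) → OnePoint (J → Y)) ⁻¹' V)ᶜ) : Set (OnePoint Y))} ∈ 𝓝 y := by
      have hcj : Continuous fun y' : J → OnePoint Y => y' j := continuous_apply j
      refine (hcl.isOpen_compl.preimage hcj).mem_nhds ?_
      simp [hj]
    rw [mem_map]
    filter_upwards [hnb] with y' hy'
    apply hVS
    by_contra hcon
    change tup y' ∉ V at hcon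
    have hne : tup y' ≠ ∞ := fun h => hcon (h ▸ hmV)
    obtain ⟨z, hz⟩ := OnePoint.ne_infty_iff_exists.mp hne
    apply hy'
    refine ⟨z j, ⟨z, ?_, rfl⟩, ?_⟩
    · rw [← hz] at hcon
      exact hcon
    · exact (congrFun (tup_eq_coe hz.symm) j).symm

end tup

/-- the shift of an index -/
theorem iterCover_of_join {X : Type*} [TopologicalSpace X] (h : X ≃ₜ X) {W : Set (Set X)}
    {N₀ M : ℕ} (hM : 0 < M) {V : Set X}
    (hV : V ∈ joinCover fun j : Fin M =>
      {V' | ∃ U ∈ iterCover h W N₀, V' = (⇑(h ^ ((j : ℕ) * N₀))) ⁻¹' U}) :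
    V ∈ iterCover h W (M * N₀) := by
  obtain ⟨f, hf, rfl⟩ := hV
  choose U hU hfU using hf
  choose g hg hUg using hU
  have hmod : ∀ i : ℕ, i / N₀ % M < M := fun i => Nat.mod_lt _ hM
  refine ⟨fun i => g ⟨i / N₀ % M, hmod i⟩ (i % N₀), fun i => hg _ _, ?_⟩
  ext x
  simp only [mem_iInter, hfU, hUg, mem_preimage, Finset.mem_range]
  constructor
  · intro hx i hi
    have hN : 0 < N₀ := by
      rcases Nat.eq_zero_or_pos N₀ with h0 | h0
      · rw [h0, mul_zero] at hi; omega
      · exact h0
    have hlt : i / N₀ < M := by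
      rw [Nat.div_lt_iff_lt_mul hN]; exact hi
    have h1 := hx ⟨i / N₀, hlt⟩ (i % N₀) (Nat.mod_lt _ hN)
    have h2 : (⟨i / N₀ % M, hmod i⟩ : Fin M) = ⟨i / N₀, hlt⟩ := Fin.ext (Nat.mod_eq_of_lt hlt)
    rw [h2]
    have h3 : (h ^ (i % N₀)) ((h ^ (i / N₀ * N₀)) x) = (h ^ i) x := by
      rw [← Homeomorph.mul_apply, ← pow_add, mul_comm, Nat.mod_add_div]
    rw [← h3]
    exact h1
  · intro hx j k hk
    have h1 := hx ((j : ℕ) * N₀ + k) (by
      calc (j : ℕ) * N₀ + k < (j : ℕ) * N₀ + N₀ := by omega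
        _ = (j + 1) * N₀ := by ring
        _ ≤ M * N₀ := Nat.mul_le_mul_right _ j.2)
    have hN : 0 < N₀ := by omega
    have h2 : ((j : ℕ) * N₀ + k) / N₀ = j := by
      rw [mul_comm, Nat.mul_add_div hN, Nat.div_eq_of_lt hk, add_zero]
    have h3 : ((j : ℕ) * N₀ + k) % N₀ = k := by
      rw [mul_comm, Nat.mul_add_mod, Nat.mod_eq_of_lt hk]
    have h4 : (⟨((j : ℕ) * N₀ + k) / N₀ % M, hmod _⟩ : Fin M) = j := by
      apply Fin.ext
      simp only [h2]
      exact Nat.mod_eq_of_lt j.2
    rw [h3, h4] at h1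
    rw [← Homeomorph.mul_apply, ← pow_add, add_comm]
    exact h1

section Phi

variable {X : Type*} [TopologicalSpace X] {M n : ℕ} {A Y : Type} [TopologicalSpace A]
  [TopologicalSpace Y]

/-- the product of the lifts at the points `P j x`, smashed with the identity of `ℝⁿ` -/
noncomputable def Phi (P : Fin M → X → X) (B : unitInterval → X → OnePoint A → OnePoint Y)
    (τ : unitInterval) (x : X) (e : OnePoint ((Fin M → A) × (Fin n → ℝ))) :
    OnePoint ((Fin M → Y) × (Fin n → ℝ)) :=
  e.elim ∞ (fun q => smash (tup fun j => B τ (P j x) (q.1 j : OnePoint A))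
    ((q.2 : Fin n → ℝ) : OnePoint (Fin n → ℝ)))

omit [TopologicalSpace X] [TopologicalSpace A] [TopologicalSpace Y] in
theorem Phi_eq_coe {P : Fin M → X → X} {B : unitInterval → X → OnePoint A → OnePoint Y}
    {τ : unitInterval} {x : X} {c : Fin M → A} {v : Fin n → ℝ} {z : Fin M → Y} {w : Fin n → ℝ}
    (h : Phi P B τ x (OnePoint.some (c, v)) = OnePoint.some (z, w)) :
    (∀ j, B τ (P j x) (c j : OnePoint A) = (z j : OnePoint Y)) ∧ w = v := by
  change smash (tup fun j => B τ (P j x) (c j : OnePoint A)) _ = _ at h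
  generalize hy : (tup fun j => B τ (P j x) (c j : OnePoint A)) = y at h
  induction y using OnePoint.rec with
  | infty => exact absurd h (OnePoint.infty_ne_coe _)
  | coe y =>
    have h1 : ((y, v) : (Fin M → Y) × (Fin n → ℝ)) = (z, w) := OnePoint.coe_injective h
    simp only [Prod.mk.injEq] at h1
    obtain ⟨rfl, rfl⟩ := h1
    exact ⟨fun j => congrFun (tup_eq_coe hy) j, rfl⟩

omit [TopologicalSpace X] [TopologicalSpace A] [TopologicalSpace Y] in
theorem Phi_coe {P : Fin M → X → X} {B : unitInterval → X → OnePoint A → OnePoint Y}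
    {τ : unitInterval} {x : X} {c : Fin M → A} {v : Fin n → ℝ} {z : Fin M → Y}
    (h : ∀ j, B τ (P j x) (c j : OnePoint A) = (z j : OnePoint Y)) :
    Phi P B τ x (OnePoint.some (c, v)) = OnePoint.some (z, v) := by
  change smash (tup fun j => B τ (P j x) (c j : OnePoint A)) _ = _
  rw [funext h, tup_coe]
  rfl

theorem continuous_Phi [T2Space A] [LocallyCompactSpace A] [T2Space Y] [LocallyCompactSpace Y]
    {P : Fin M → X → X} (hP : ∀ j, Continuous (P j))
    {B : unitInterval → X → OnePoint A → OnePoint Y}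
    (hB : Continuous (fun q : unitInterval × X × OnePoint A => B q.1 q.2.1 q.2.2))
    (hinf : ∀ τ x, B τ x ∞ = ∞) :
    Continuous (fun q : (unitInterval × X) × OnePoint ((Fin M → A) × (Fin n → ℝ)) =>
      Phi P B q.1.1 q.1.2 q.2) := by
  refine LiftAux.continuous_extend (P := unitInterval × X) (fun p e => Phi P B p.1 p.2 e)
    (fun _ => rfl) ?_ ?_
  · -- continuity on the finite part
    have h1 : Continuous (fun q : (unitInterval × X) × ((Fin M → A) × (Fin n → ℝ)) =>
        tup fun j => B q.1.1 (P j q.1.2) (q.2.1 j : OnePoint A)) := by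
      refine continuous_tup.comp (continuous_pi fun j => ?_)
      refine hB.comp (g := fun q : unitInterval × X × OnePoint A => B q.1 q.2.1 q.2.2)
        (f := fun q : (unitInterval × X) × ((Fin M → A) × (Fin n → ℝ)) =>
          (q.1.1, P j q.1.2, (q.2.1 j : OnePoint A))) ?_
      have h0 : Continuous (fun a : A => (a : OnePoint A)) := OnePoint.continuous_coe
      have := hP j
      fun_prop
    have h2 : Continuous (fun q : (unitInterval × X) × ((Fin M → A) × (Fin n → ℝ)) =>
        ((q.2.2 : Fin n → ℝ) : OnePoint (Fin n → ℝ))) :=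
      OnePoint.continuous_coe.comp (continuous_snd.comp continuous_snd)
    exact continuous_smash.comp (h1.prodMk h2)
  · rintro K hK p₀
    have hKj : ∀ j, IsCompact ((fun z : (Fin M → Y) × (Fin n → ℝ) => z.1 j) '' K) := fun j =>
      hK.image ((continuous_apply j).comp continuous_fst)
    have hj : ∀ j, ∃ N ∈ 𝓝 p₀, ∃ L : Set A, IsCompact L ∧ ∀ p ∈ N, ∀ a, a ∉ L →
        B p.1 (P j p.2) (a : OnePoint A) ∉
          ((↑) '' ((fun z : (Fin M → Y) × (Fin n → ℝ) => z.1 j) '' K) : Set (OnePoint Y)) := by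
      intro j
      have hcl : IsClosed ((↑) '' ((fun z : (Fin M → Y) × (Fin n → ℝ) => z.1 j) '' K) :
          Set (OnePoint Y)) := by
        rw [OnePoint.isClosed_image_coe]
        exact ⟨(hKj j).isClosed, hKj j⟩
      have hg : Continuous (fun q : (unitInterval × X) × OnePoint A => B q.1.1 (P j q.1.2) q.2) := by
        refine hB.comp (g := fun q : unitInterval × X × OnePoint A => B q.1 q.2.1 q.2.2)
          (f := fun q : (unitInterval × X) × OnePoint A => (q.1.1, P j q.1.2, q.2)) ?_
        have := hP j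
        fun_prop
      have hO := hcl.isOpen_compl.preimage hg
      have hm : (p₀, (∞ : OnePoint A)) ∈ (fun q : (unitInterval × X) × OnePoint A =>
          B q.1.1 (P j q.1.2) q.2) ⁻¹' ((↑) '' ((fun z : (Fin M → Y) × (Fin n → ℝ) => z.1 j) '' K) :
          Set (OnePoint Y))ᶜ := by
        simp [hinf]
      have hnb := hO.mem_nhds hm
      rw [nhds_prod_eq] at hnb
      obtain ⟨N, hN, N₂, hN₂, hNN⟩ := Filter.mem_prod_iff.mp hnb
      obtain ⟨V, hVN, hV, hmV⟩ := mem_nhds_iff.mp hN₂
      rw [OnePoint.isOpen_iff_of_mem hmV] at hV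
      obtain ⟨_, hLA⟩ := hV
      refine ⟨N, hN, _, hLA, fun p hp a ha => ?_⟩
      have ha' : (a : OnePoint A) ∈ V := by
        by_contra hcon
        exact ha hcon
      exact hNN (mk_mem_prod hp (hVN ha'))
    choose N hN L hL hNL using hj
    refine ⟨⋂ j, N j, iInter_mem.2 hN, Set.pi univ L ×ˢ (Prod.snd '' K),
      (isCompact_univ_pi hL).prod (hK.image continuous_snd), ?_⟩
    rintro p hp ⟨c, v⟩ hcv ⟨⟨z, w⟩, hzw, hz⟩
    obtain ⟨h1, rfl⟩ := Phi_eq_coe hz.symm
    apply hcv
    refine ⟨fun j _ => ?_, ⟨_, hzw, rfl⟩⟩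
    by_contra hcj
    apply hNL j p (mem_iInter.1 hp j) (c j) hcj
    rw [h1 j]
    exact ⟨z j, ⟨_, hzw, rfl⟩, rfl⟩

end Phi

/-- the `j`-th window of a point -/
def win {X A : Type*} {M n : ℕ} (P : Fin M → X → X) (j : Fin M)
    (e : X × OnePoint ((Fin M → A) × (Fin n → ℝ))) : X × OnePoint A :=
  (P j e.1, e.2.elim ∞ fun q => (q.1 j : OnePoint A))

theorem continuousOn_win {X A : Type*} [TopologicalSpace X] [TopologicalSpace A] {M n : ℕ}
    {P : Fin M → X → X} (hP : ∀ j, Continuous (P j)) (j : Fin M)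
    {K : Set (X × OnePoint ((Fin M → A) × (Fin n → ℝ)))} (hK : ∀ e ∈ K, e.2 ≠ ∞) :
    ContinuousOn (win P j) K := by
  rintro ⟨x, e⟩ he
  obtain ⟨q, rfl⟩ := OnePoint.ne_infty_iff_exists.mp (hK _ he)
  apply ContinuousAt.continuousWithinAt
  have hJ : IsOpenEmbedding (fun q : X × ((Fin M → A) × (Fin n → ℝ)) =>
      ((q.1, (q.2 : OnePoint ((Fin M → A) × (Fin n → ℝ)))) :
        X × OnePoint ((Fin M → A) × (Fin n → ℝ)))) :=
    IsOpenEmbedding.id.prodMap OnePoint.isOpenEmbedding_coe
  refine (hJ.continuousAt_iff (x := (x, q))).1 ?_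
  have h1 : Continuous (fun q : X × ((Fin M → A) × (Fin n → ℝ)) =>
      (P j q.1, (q.2.1 j : OnePoint A))) := by
    have h0 : Continuous (fun a : A => (a : OnePoint A)) := OnePoint.continuous_coe
    have := hP j
    fun_prop
  exact h1.continuousAt

end WinAux

open WinAux LiftAux in
/-- **windows**: a lift of one window and `M` factors of the retraction give a stable section of
the nerve of the cover of `M` windows -/
theorem stabSmall_of_lift {X : Type*} [TopologicalSpace X] (h : X ≃ₜ X) {W : Set (Set X)}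
    {N₀ t : ℕ} {C : Space} {u : (Fin t → ℝ) → C.carrier} (hu : Topology.IsClosedEmbedding u)
    {d D M s n : ℕ} (hM : 0 < M) (hL : Lift (iterCover h W N₀) C u d D) (hr : LRat C u M s n) :
    StabSmall (iterCover h W (M * N₀)) ((Fin M → (Fin t → ℝ) × ℝ) × (Fin n → ℝ))
      (M * d + s * D) := by
  classical
  obtain ⟨B, hB, hBinf, hB0, ord, hordD, hordd, hsm⟩ := hL
  obtain ⟨r, hrc, hrinf, hrs, K, hK, hKinf, hK0, hK1⟩ := hr
  have : LocallyCompactSpace (cylSet C u) :=
    (isClosed_cylSet hu).isClosedEmbedding_subtypeVal.locallyCompactSpace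
  let P : Fin M → X → X := fun j => ⇑(h ^ ((j : ℕ) * N₀))
  have hP : ∀ j, Continuous (P j) := fun j => (h ^ ((j : ℕ) * N₀)).continuous
  have hPhi := continuous_Phi (M := M) (n := n) hP hB hBinf
  -- the homotopy
  let H : unitInterval → X → OnePoint ((Fin M → (Fin t → ℝ) × ℝ) × (Fin n → ℝ)) →
      OnePoint ((Fin M → (Fin t → ℝ) × ℝ) × (Fin n → ℝ)) := fun τ x e =>
    if (τ : ℝ) ≤ 1 / 2 then K (cl (2 * τ)) e else r (Phi P B (cl (2 * τ - 1)) x e)
  have hHone : ∀ x e, H 1 x e = r (Phi P B 1 x e) := by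
    intro x e
    have h1 : ¬ ((1 : unitInterval) : ℝ) ≤ 1 / 2 := by norm_num
    simp only [H, if_neg h1]
    rw [cl_of_one_le (by norm_num)]
  have hmid : ∀ x e, K 1 e = r (Phi P B 0 x e) := by
    intro x e
    induction e using OnePoint.rec with
    | infty => rw [hKinf]; exact hrinf.symm
    | coe e =>
      obtain ⟨c, v⟩ := e
      have h1 := hK1 c v
      rw [h1]
      congr 1
      exact (Phi_coe fun j => hB0 _ _ _).symm
  refine ⟨H, ?_, ?_, ?_, ?_⟩
  · refine Continuous.if_le ?_ ?_ (continuous_subtype_val.comp continuous_fst) continuous_const ?_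
    · refine hK.comp (g := fun q : unitInterval × OnePoint _ => K q.1 q.2)
        (f := fun q : unitInterval × X × OnePoint ((Fin M → (Fin t → ℝ) × ℝ) × (Fin n → ℝ)) =>
          (cl (2 * q.1), q.2.2)) ?_
      have h0 := continuous_cl
      fun_prop
    · refine hrc.comp (hPhi.comp
        (f := fun q : unitInterval × X × OnePoint ((Fin M → (Fin t → ℝ) × ℝ) × (Fin n → ℝ)) =>
          ((cl (2 * q.1 - 1), q.2.1), q.2.2)) ?_)
      have h0 := continuous_cl
      fun_prop
    · rintro ⟨τ, x, e⟩ hτ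
      simp only at hτ ⊢
      rw [hτ, cl_of_one_le (by norm_num), cl_of_nonpos (by norm_num)]
      exact hmid x e
  · intro τ x
    simp only [H]
    split_ifs
    · exact hKinf _
    · exact hrinf
  · intro x v
    have h1 : ((0 : unitInterval) : ℝ) ≤ 1 / 2 := by norm_num
    simp only [H, if_pos h1]
    rw [cl_of_nonpos (by norm_num)]
    exact hK0 v
  · -- the weights
    have hfin : ∀ e : X × OnePoint ((Fin M → (Fin t → ℝ) × ℝ) × (Fin n → ℝ)),
        H 1 e.1 e.2 ≠ ∞ → ∃ (c : Fin M → (Fin t → ℝ) × ℝ) (v : Fin n → ℝ)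
          (z : Fin M → cylSet C u), e.2 = OnePoint.some (c, v) ∧
          (∀ j, B 1 (P j e.1) (c j : OnePoint ((Fin t → ℝ) × ℝ)) =
            (z j : OnePoint (cylSet C u))) ∧ {i | (z i).1.2 ≤ 0}.ncard < s := by
      rintro ⟨x, e⟩ he
      rw [hHone] at he
      have h1 : Phi P B 1 x e ≠ ∞ := fun h2 => he (by rw [h2]; exact hrinf)
      have h3 : e ≠ ∞ := by
        rintro rfl
        exact h1 rfl
      obtain ⟨⟨c, v⟩, rfl⟩ := OnePoint.ne_infty_iff_exists.mp h3
      obtain ⟨⟨z, w⟩, hz⟩ := OnePoint.ne_infty_iff_exists.mp h1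
      obtain ⟨h4, rfl⟩ := Phi_eq_coe hz.symm
      refine ⟨c, w, z, rfl, h4, ?_⟩
      by_contra hcon
      push Not at hcon
      apply he
      rw [← hz]
      exact hrs z w hcon
    have hj : ∀ j : Fin M, SmallOn {V' | ∃ V ∈ iterCover h W N₀,
        V' = (⇑(h ^ ((j : ℕ) * N₀))) ⁻¹' V}
        (Prod.fst : X × OnePoint ((Fin M → (Fin t → ℝ) × ℝ) × (Fin n → ℝ)) → X)
        {e | H 1 e.1 e.2 ≠ ∞} (ord ∘ win P j) := by
      intro j
      have h1 := hsm.comp (φ := win (n := n) P j) (K' := {e | H 1 e.1 e.2 ≠ ∞})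
        (continuousOn_win hP j (by
          intro e he
          obtain ⟨c, v, z, h1, -⟩ := hfin e he
          rw [h1]
          exact OnePoint.coe_ne_infty _)) (by
          intro e he
          obtain ⟨c, v, z, h1, h2, -⟩ := hfin e he
          obtain ⟨x, e⟩ := e
          simp only at h1
          subst h1
          change B 1 (P j x) (c j : OnePoint ((Fin t → ℝ) × ℝ)) ≠ ∞
          rw [h2 j]
          exact OnePoint.coe_ne_infty _)
      exact SmallOn.preimage h1
    refine (SmallOn.join hj).mono (fun V hV => ⟨V, iterCover_of_join h hM hV, Subset.rfl⟩)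
      Subset.rfl ?_
    intro e he
    obtain ⟨c, v, z, h1, h2, h3⟩ := hfin e he
    obtain ⟨x, e⟩ := e
    simp only at h1 h2
    subst h1
    have hle : ∀ j : Fin M, (ord ∘ win P j) (x, OnePoint.some (c, v)) ≤
        d + if (z j).1.2 ≤ 0 then D else 0 := by
      intro j
      split_ifs with hz
      · exact (hordD _).trans (by omega)
      · rw [add_zero]
        apply hordd
        intro y hy
        have h4 : B 1 (P j x) (c j : OnePoint ((Fin t → ℝ) × ℝ)) = OnePoint.some y := hy
        rw [h2 j] at h4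
        have h5 : z j = y := OnePoint.coe_injective h4
        rw [← h5]
        exact not_le.1 hz
    calc ∑ j, (ord ∘ win P j) (x, OnePoint.some (c, v))
        ≤ ∑ j : Fin M, (d + if (z j).1.2 ≤ 0 then D else 0) := Finset.sum_le_sum fun j _ => hle j
      _ = M * d + {i | (z i).1.2 ≤ 0}.ncard * D := by
          rw [Finset.sum_add_distrib, Finset.sum_const, Finset.card_univ, Fintype.card_fin,
            smul_eq_mul, ← Finset.sum_filter, Finset.sum_const, smul_eq_mul,
            Set.ncard_eq_toFinset_card', Set.toFinset_ofPred]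
      _ ≤ M * d + s * D := by
          have := Nat.mul_le_mul_right D h3.le
          omega

end Vale.Agent.P093.U
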