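import Vale.Agent.P093.U.Destab
import Vale.Agent.P093.U.Rate
import Vale.Agent.P093.U.Lift
import Vale.Agent.P093.U.Windows

/-!
# P093, part U: main theorem

`main`: if the window `[0, N₀)` is `CSmall` of order `d` for a closed embedding
`u : R^t → C` which satisfies `LR`, then the order rate of the cover is at most `d / N₀`.
-/

open Set Filter OnePoint
open Vale.Agent.P251.St (Space)
open scoped ENNReal

namespace Vale.Agent.P093.U

section Cov

variable {X : Type*} [TopologicalSpace X]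

theorem mem_iterCover {h : X ≃ₜ X} {W : Set (Set X)} {N : ℕ} {V : Set X} :
    V ∈ iterCover h W N ↔ ∃ f : ℕ → Set X, (∀ j, f j ∈ W) ∧
      V = ⋂ j ∈ Finset.range N, (⇑(h ^ j)) ⁻¹' (f j) := Iff.rfl

theorem nonempty_of_iterCover {h : X ≃ₜ X} {W : Set (Set X)} {N : ℕ} {V : Set X}
    (hV : V ∈ iterCover h W N) : W.Nonempty := by
  obtain ⟨f, hf, -⟩ := hV
  exact ⟨f 0, hf 0⟩

theorem continuous_hpow (h : X ≃ₜ X) (j : ℕ) : Continuous (⇑(h ^ j)) := (h ^ j).continuous

theorem isFinOpenCover_iterCover [Nonempty X] (h : X ≃ₜ X) {W : Set (Set X)}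
    (hW : IsFinOpenCover W) (N : ℕ) : IsFinOpenCover (iterCover h W N) := by
  obtain ⟨hfin, hop, hcov⟩ := hW
  have hne : W.Nonempty := by
    obtain ⟨x⟩ := ‹Nonempty X›
    have hx : x ∈ ⋃₀ W := hcov ▸ mem_univ x
    obtain ⟨V, hV, -⟩ := hx
    exact ⟨V, hV⟩
  obtain ⟨V₀, hV₀⟩ := hne
  refine ⟨?_, ?_, ?_⟩
  · -- finiteness: image of a finite set of functions on `Fin N`
    have hfin' : {f : Fin N → Set X | ∀ i, f i ∈ W}.Finite := Set.Finite.pi' fun _ => hfin
    refine (hfin'.image fun f : Fin N → Set X => ⋂ j : Fin N, (⇑(h ^ (j : ℕ))) ⁻¹' (f j)).subset ?_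
    rintro V ⟨f, hf, rfl⟩
    refine ⟨fun j => f j, fun j => hf j, ?_⟩
    ext x
    simp only [mem_iInter, Finset.mem_range, mem_preimage]
    exact ⟨fun H j hj => H ⟨j, hj⟩, fun H j => H j j.2⟩
  · rintro V ⟨f, hf, rfl⟩
    exact isOpen_biInter_finset fun j _ => (hop _ (hf j)).preimage (continuous_hpow h j)
  · refine eq_univ_of_forall fun x => ?_
    have hx : ∀ j : ℕ, ∃ V ∈ W, (h ^ j) x ∈ V := fun j => by
      have : (h ^ j) x ∈ ⋃₀ W := hcov ▸ mem_univ _
      exact this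
    choose f hf hfx using hx
    exact ⟨_, ⟨f, hf, rfl⟩, by simpa using fun j _ => hfx j⟩

/-- coarser covers have smaller order -/
theorem coverDim_le_of_refines [CompactSpace X] [T2Space X] {W W' : Set (Set X)}
    (hW : IsFinOpenCover W) (h : ∀ V ∈ W, ∃ V' ∈ W', V ⊆ V') : coverDim W' ≤ coverDim W :=
  coverDim_le_of_smallOn ((smallOn_of_coverDim hW).mono h Subset.rfl fun _ _ => le_rfl)

theorem isFinOpenCover_preimage {W : Set (Set X)} (hW : IsFinOpenCover W) {g : X → X}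
    (hg : Continuous g) : IsFinOpenCover {V' | ∃ V ∈ W, V' = g ⁻¹' V} := by
  obtain ⟨hfin, hop, hcov⟩ := hW
  refine ⟨(hfin.image fun V => g ⁻¹' V).subset ?_, ?_, ?_⟩
  · rintro V ⟨U, hU, rfl⟩
    exact ⟨U, hU, rfl⟩
  · rintro V ⟨U, hU, rfl⟩
    exact (hop U hU).preimage hg
  · refine eq_univ_of_forall fun x => ?_
    have hx : g x ∈ ⋃₀ W := hcov ▸ mem_univ _
    obtain ⟨V, hV, hxV⟩ := hx
    exact ⟨_, ⟨V, hV, rfl⟩, hxV⟩

theorem coverDim_preimage_le [CompactSpace X] [T2Space X] {W : Set (Set X)}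
    (hW : IsFinOpenCover W) {g : X → X} (hg : Continuous g) :
    coverDim {V' | ∃ V ∈ W, V' = g ⁻¹' V} ≤ coverDim W := by
  refine coverDim_le_of_smallOn ?_
  have h1 := (smallOn_of_coverDim hW).comp (φ := g) (K' := univ) hg.continuousOn
    (mapsTo_univ _ _)
  exact SmallOn.preimage (g := g) (p := (id : X → X)) h1

theorem iterCover_refines {h : X ≃ₜ X} {W : Set (Set X)} {M N : ℕ} (hMN : M ≤ N) :
    ∀ V ∈ iterCover h W N, ∃ V' ∈ iterCover h W M, V ⊆ V' := by
  rintro V ⟨f, hf, rfl⟩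
  refine ⟨_, ⟨f, hf, rfl⟩, fun x hx => ?_⟩
  simp only [mem_iInter, Finset.mem_range, mem_preimage] at hx ⊢
  exact fun j hj => hx j (hj.trans_le hMN)

theorem coverDim_iterCover_mono [CompactSpace X] [T2Space X] [Nonempty X] (h : X ≃ₜ X)
    {W : Set (Set X)} (hW : IsFinOpenCover W) {M N : ℕ} (hMN : M ≤ N) :
    coverDim (iterCover h W M) ≤ coverDim (iterCover h W N) :=
  coverDim_le_of_refines (isFinOpenCover_iterCover h hW N) (iterCover_refines hMN)

/-- the join of the first window and the shifted second window -/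
theorem coverDim_iterCover_add_le [CompactSpace X] [T2Space X] (h : X ≃ₜ X)
    {W : Set (Set X)} (N M : ℕ)
    (hfin : IsFinOpenCover {U | ∃ A ∈ iterCover h W N, ∃ B ∈ {V' | ∃ V ∈ iterCover h W M,
      V' = (⇑(h ^ N)) ⁻¹' V}, U = A ∩ B}) :
    coverDim (iterCover h W (N + M)) ≤
      coverDim {U | ∃ A ∈ iterCover h W N, ∃ B ∈ {V' | ∃ V ∈ iterCover h W M,
        V' = (⇑(h ^ N)) ⁻¹' V}, U = A ∩ B} := by
  refine coverDim_le_of_refines hfin ?_
  rintro V ⟨A, ⟨f, hf, rfl⟩, B, ⟨B', ⟨g, hg, rfl⟩, rfl⟩, rfl⟩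
  refine ⟨_, ⟨fun j => if j < N then f j else g (j - N), fun j => ?_, rfl⟩, ?_⟩
  · beta_reduce
    split_ifs
    · exact hf j
    · exact hg _
  · rintro x ⟨hx, hx'⟩
    simp only [mem_iInter, Finset.mem_range, mem_preimage] at hx hx' ⊢
    intro j hj
    split_ifs with hjN
    · exact hx j hjN
    · have h1 := hx' (j - N) (by omega)
      have h2 : (h ^ j) x = (h ^ (j - N)) ((h ^ N) x) := by
        conv_lhs => rw [show j = (j - N) + N by omega, pow_add]
        rfl
      rw [h2]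
      exact h1

theorem isFinOpenCover_inter {W W₀ : Set (Set X)} (hW : IsFinOpenCover W)
    (hW₀ : IsFinOpenCover W₀) : IsFinOpenCover {U | ∃ A ∈ W, ∃ B ∈ W₀, U = A ∩ B} := by
  obtain ⟨hfin, hop, hcov⟩ := hW
  obtain ⟨hfin₀, hop₀, hcov₀⟩ := hW₀
  refine ⟨((hfin.prod hfin₀).image fun q : Set X × Set X => q.1 ∩ q.2).subset ?_, ?_, ?_⟩
  · rintro V ⟨A, hA, B, hB, rfl⟩
    exact ⟨(A, B), ⟨hA, hB⟩, rfl⟩
  · rintro V ⟨A, hA, B, hB, rfl⟩
    exact (hop A hA).inter (hop₀ B hB)
  · refine eq_univ_of_forall fun x => ?_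
    have hx : x ∈ ⋃₀ W := hcov ▸ mem_univ _
    have hx₀ : x ∈ ⋃₀ W₀ := hcov₀ ▸ mem_univ _
    obtain ⟨V, hV, hxV⟩ := hx
    obtain ⟨V₀, hV₀, hxV₀⟩ := hx₀
    exact ⟨_, ⟨V, hV, V₀, hV₀, rfl⟩, hxV, hxV₀⟩

/-- a stable section of order `d` over the window `[0, N)` bounds the rate by `d / N` -/
theorem rate_of_stabSmall [CompactSpace X] [T2Space X] (h : X ≃ₜ X) {W : Set (Set X)}
    (hW : IsFinOpenCover W) {N d : ℕ} (hN : 0 < N) {V : Type} [NormedAddCommGroup V]
    [NormedSpace ℝ V] [FiniteDimensional ℝ V] (hS : StabSmall (iterCover h W N) V d) :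
    limsup (fun n : ℕ => (coverDim (iterCover h W n) : ℝ≥0∞) / n) atTop ≤ (d : ℝ≥0∞) / N := by
  rcases isEmpty_or_nonempty X with hX | hX
  · -- everything has order `0`
    have h0 : ∀ n, coverDim (iterCover h W n) = 0 := fun n => by
      refine Nat.le_zero.1 (coverDim_le_of_smallOn ?_)
      refine ⟨PEmpty, inferInstance, fun i => i.elim, fun i => i.elim, fun i => i.elim,
        fun e => (hX.false e).elim, fun i => i.elim, fun e => (hX.false e).elim⟩
    simp [h0]
  obtain ⟨T, hT⟩ := destab (isFinOpenCover_iterCover h hW N) hS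
  by_cases hb : ∃ M₀, T * (coverDim (iterCover h W N) + 1) ≤ coverDim (iterCover h W M₀) + 1
  · obtain ⟨M₀, hM₀⟩ := hb
    refine rate_of_step' (M₀ := M₀) h W hN fun M hM => ?_
    -- the shifted window
    have hWM := isFinOpenCover_iterCover h hW M
    have hsh := isFinOpenCover_preimage hWM (continuous_hpow h N)
    have h1 : coverDim {V' | ∃ V ∈ iterCover h W M, V' = (⇑(h ^ N)) ⁻¹' V} ≤
        coverDim (iterCover h W M) := coverDim_preimage_le hWM (continuous_hpow h N)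
    have h2 : coverDim (iterCover h W M) ≤
        coverDim {V' | ∃ V ∈ iterCover h W M, V' = (⇑(h ^ N)) ⁻¹' V} := by
      -- pull back by the inverse
      have h3 := coverDim_preimage_le hsh (g := ⇑((h ^ N).symm)) (h ^ N).symm.continuous
      refine le_trans (le_of_eq ?_) h3
      congr 1
      ext V
      constructor
      · intro hV
        refine ⟨(⇑(h ^ N)) ⁻¹' V, ⟨V, hV, rfl⟩, ?_⟩
        ext x
        simp
      · rintro ⟨B, ⟨V', hV', rfl⟩, rfl⟩
        have : (⇑((h ^ N).symm)) ⁻¹' ((⇑(h ^ N)) ⁻¹' V') = V' := by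
          ext x
          simp
        rw [this]
        exact hV'
    have h4 := hT _ hsh ((hM₀.trans (Nat.add_le_add_right
      (coverDim_iterCover_mono h hW hM) 1)).trans (Nat.add_le_add_right h2 1))
    exact (coverDim_iterCover_add_le h N M (isFinOpenCover_inter
      (isFinOpenCover_iterCover h hW N) hsh)).trans (h4.trans (Nat.add_le_add_right h1 d))
  · -- the orders are bounded
    push Not at hb
    have hbd : ∀ M, coverDim (iterCover h W M) ≤ T * (coverDim (iterCover h W N) + 1) := fun M => by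
      have := hb M
      omega
    set B : ℕ := T * (coverDim (iterCover h W N) + 1) with hB
    have hlim : Tendsto (fun n : ℕ => (B : ℝ≥0∞) / n) atTop (nhds 0) := by
      have := ENNReal.tendsto_nat_nhds_top
      simpa [div_eq_mul_inv] using ENNReal.Tendsto.const_mul
        (tendsto_inv_iff.2 this) (Or.inr (ENNReal.natCast_ne_top B))
    refine le_trans ?_ (bot_le : (0 : ℝ≥0∞) ≤ _)
    calc limsup (fun n : ℕ => (coverDim (iterCover h W n) : ℝ≥0∞) / n) atTop
        ≤ limsup (fun n : ℕ => (B : ℝ≥0∞) / n) atTop := by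
          refine limsup_le_limsup (Eventually.of_forall fun n => ?_)
          exact ENNReal.div_le_div_right (by exact_mod_cast hbd n) _
      _ = 0 := hlim.limsup_eq

end Cov

/-- **Main theorem of part U.** -/
theorem main {X : Type*} [TopologicalSpace X] [CompactSpace X] [T2Space X] (h : X ≃ₜ X)
    {W : Set (Set X)} (hW : IsFinOpenCover W) {N₀ t d : ℕ}
    (hN : 0 < N₀) {C : Space} {u : (Fin t → ℝ) → C.carrier} (hu : Topology.IsClosedEmbedding u)
    (hA : CSmall (iterCover h W N₀) C u d) (hLR : LR C u) :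
    limsup (fun n : ℕ => (coverDim (iterCover h W n) : ℝ≥0∞) / n) atTop ≤ (d : ℝ≥0∞) / N₀ := by
  rcases isEmpty_or_nonempty X with hX | hX
  · have h0 : ∀ n, coverDim (iterCover h W n) = 0 := fun n => by
      refine Nat.le_zero.1 (coverDim_le_of_smallOn ?_)
      refine ⟨PEmpty, inferInstance, fun i => i.elim, fun i => i.elim, fun i => i.elim,
        fun e => (hX.false e).elim, fun i => i.elim, fun e => (hX.false e).elim⟩
    simp [h0]
  -- the lift
  obtain ⟨D, hD⟩ : ∃ D, Lift (iterCover h W N₀) C u d D :=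
    ⟨_, lift_of_cSmall' hu (smallOn_of_coverDim (isFinOpenCover_iterCover h hW N₀)) hA⟩
  -- the bound for every `ρ`
  have key : ∀ ρ : ℝ, 0 < ρ →
      limsup (fun n : ℕ => (coverDim (iterCover h W n) : ℝ≥0∞) / n) atTop ≤
        ENNReal.ofReal ((d + ρ * D) / N₀) := by
    intro ρ hρ
    obtain ⟨M, s, n, hM, hs, hr⟩ := hLR ρ hρ
    have h1 := rate_of_stabSmall h hW (Nat.mul_pos hM hN) (stabSmall_of_lift h hu hM hD hr)
    refine h1.trans ?_
    have hM' : (0 : ℝ) < M := by exact_mod_cast hM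
    have hN' : (0 : ℝ) < N₀ := by exact_mod_cast hN
    rw [show ((M * d + s * D : ℕ) : ℝ≥0∞) / ((M * N₀ : ℕ) : ℝ≥0∞) =
      ENNReal.ofReal (((M * d + s * D : ℕ) : ℝ) / ((M * N₀ : ℕ) : ℝ)) by
        rw [ENNReal.ofReal_div_of_pos (by exact_mod_cast Nat.mul_pos hM hN),
          ENNReal.ofReal_natCast, ENNReal.ofReal_natCast]]
    refine ENNReal.ofReal_le_ofReal ?_
    push_cast
    rw [div_le_div_iff₀ (by positivity) hN']
    have hD0 : (0 : ℝ) ≤ D := Nat.cast_nonneg D
    have : (s : ℝ) * D ≤ ρ * M * D := mul_le_mul_of_nonneg_right hs hD0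
    nlinarith [mul_le_mul_of_nonneg_right this hN'.le]
  -- let `ρ → 0`
  have hN' : (0 : ℝ) < N₀ := by exact_mod_cast hN
  have hlim : Tendsto (fun ρ : ℝ => ENNReal.ofReal ((d + ρ * D) / N₀)) (nhdsWithin 0 (Ioi 0))
      (nhds (ENNReal.ofReal (d / N₀))) := by
    refine (ENNReal.continuous_ofReal.tendsto _).comp ?_
    have h2 : Tendsto (fun ρ : ℝ => ((d : ℝ) + ρ * D) / N₀) (nhds 0) (nhds (((d : ℝ) + 0 * D) / N₀)) :=
      ((continuous_const.add (continuous_id.mul continuous_const)).div_const _).tendsto 0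
    rw [zero_mul, add_zero] at h2
    exact h2.mono_left nhdsWithin_le_nhds
  have h3 := ge_of_tendsto hlim (eventually_mem_nhdsWithin.mono fun ρ hρ => key ρ hρ)
  refine h3.trans (le_of_eq ?_)
  rw [ENNReal.ofReal_div_of_pos hN', ENNReal.ofReal_natCast, ENNReal.ofReal_natCast]

end Vale.Agent.P093.U
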