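import Vale.Agent.P251.St.Base
import Vale.Agent.P093.MeanDim

/-!
# P093, part U: frozen definitions

Everything is in the format of `P251/St/Base.lean`: a `Space` is a locally compact Hausdorff
space `X`, standing for the pointed compact space `X⁺` (its one-point compactification).

* `SmallOn` : a cover, pulled back to a subset `K` of a space `E` over `X`, has carried weights
  with at most `ord e + 1` nonzero members at `e`.
* `CSmall` : interface of part A with part U.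
* `LR` : interface of part N with part U.
* `StabSmall` : stable sections of the nerve; input of the destabilisation lemma.
* `Lift` : the intermediate object of part U.
-/

open OnePoint Set
open Vale.Agent.P251.St (Space Map Homotopic)

namespace Vale.Agent.P093.U

section Small

variable {X : Type*} {E : Type*} [TopologicalSpace E]

/-- finitely many carried weights on `K ⊆ E`, at most `ord e + 1` of them are nonzero at `e`;
`𝒲` is a family of subsets of `X` and `p : E → X`. -/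
def SmallOn (𝒲 : Set (Set X)) (p : E → X) (K : Set E) (ord : E → ℕ) : Prop :=
  ∃ (ι : Type) (_ : Fintype ι) (w : ι → E → ℝ),
    (∀ i, ContinuousOn (w i) K) ∧ (∀ i, ∀ e ∈ K, 0 ≤ w i e) ∧ (∀ e ∈ K, ∑ i, w i e = 1) ∧
    (∀ i, ∃ V ∈ 𝒲, ∀ e ∈ K, w i e ≠ 0 → p e ∈ V) ∧
    ∀ e ∈ K, {i | w i e ≠ 0}.ncard ≤ ord e + 1

/-- the join of a family of covers, `{⋂ j, f j}` with `f j ∈ 𝒲 j` -/
def joinCover {J : Type*} (𝒲 : J → Set (Set X)) : Set (Set X) :=
  {V | ∃ f : J → Set X, (∀ j, f j ∈ 𝒲 j) ∧ V = ⋂ j, f j}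

end Small

section Stable

variable {X : Type*} [TopologicalSpace X]

/-- `f : R^t → C` as a pointed map `(R^t)⁺ → C⁺` (continuous when `f` is proper). -/
abbrev plus {A B : Type*} (f : A → B) : OnePoint A → OnePoint B := OnePoint.map f

/-- **interface A → U.** `u : R^t → C` a closed embedding. The unit `u` of `C` can be deformed,
over `X`, to a map `a` such that on `{a ≠ ∞}` the cover `𝒲` has weights of order `≤ d`. -/
def CSmall (𝒲 : Set (Set X)) {t : ℕ} (C : Space) (u : (Fin t → ℝ) → C.carrier) (d : ℕ) : Prop :=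
  ∃ H : unitInterval → X → OnePoint (Fin t → ℝ) → C.Pt,
    Continuous (fun q : unitInterval × X × OnePoint (Fin t → ℝ) => H q.1 q.2.1 q.2.2) ∧
    (∀ τ x, H τ x ∞ = ∞) ∧ (∀ x v, H 0 x v = plus u v) ∧
    SmallOn 𝒲 (Prod.fst : X × OnePoint (Fin t → ℝ) → X) {e | H 1 e.1 e.2 ≠ ∞} (fun _ => d)

/-- the space `Y = {(c, l) : l ≥ 0 or c ∈ im u}` -/
def cylSet {t : ℕ} (C : Space) (u : (Fin t → ℝ) → C.carrier) : Set (C.carrier × ℝ) :=
  {q | 0 ≤ q.2 ∨ q.1 ∈ range u}

/-- the data of `LR` for `M` factors, `s` and `n`: a pointed map `r` of `(Y^M × R^n)⁺` to the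
sphere `((R^t × R)^M × R^n)⁺` which is `∞` where at least `s` coordinates are in `Y₀ = {l ≤ 0}`,
and which is homotopic to the identity on `((R^t × R)^M × R^n)⁺`. -/
def LRat {t : ℕ} (C : Space) (u : (Fin t → ℝ) → C.carrier) (M s n : ℕ) : Prop :=
  ∃ r : OnePoint ((Fin M → cylSet C u) × (Fin n → ℝ)) →
      OnePoint ((Fin M → (Fin t → ℝ) × ℝ) × (Fin n → ℝ)),
    Continuous r ∧ r ∞ = ∞ ∧
    (∀ (y : Fin M → cylSet C u) (v : Fin n → ℝ), s ≤ {i | (y i).1.2 ≤ 0}.ncard →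
      r (OnePoint.some (y, v)) = ∞) ∧
    ∃ K : unitInterval → OnePoint ((Fin M → (Fin t → ℝ) × ℝ) × (Fin n → ℝ)) →
        OnePoint ((Fin M → (Fin t → ℝ) × ℝ) × (Fin n → ℝ)),
      Continuous (fun q : unitInterval × OnePoint _ => K q.1 q.2) ∧ (∀ τ, K τ ∞ = ∞) ∧
      (∀ e, K 0 e = e) ∧
      ∀ c : Fin M → (Fin t → ℝ) × ℝ, ∀ v, K 1 (OnePoint.some (c, v)) =
        r (OnePoint.some (fun i => ⟨(u (c i).1, (c i).2), Or.inr ⟨(c i).1, rfl⟩⟩, v))

/-- **interface N → U.** `u : R^t → C` a closed embedding; `Y = cylSet C u`, `Y₀ = {l ≤ 0}`.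
For every `ρ > 0` there are `M ≥ 1`, `s ≤ ρ M`, `n` as in `LRat`. -/
def LR {t : ℕ} (C : Space) (u : (Fin t → ℝ) → C.carrier) : Prop :=
  ∀ ρ : ℝ, 0 < ρ → ∃ M s n : ℕ, 0 < M ∧ (s : ℝ) ≤ ρ * M ∧ LRat C u M s n

/-- stable sections of the nerve of `𝒲` of order `≤ d`: a family `g` of self-maps of the sphere
`(R^k)⁺` over `X`, homotopic to the identity, such that `𝒲` has order `≤ d` on `{g ≠ ∞}`. Here
`V` is any finite dimensional normed space. -/
def StabSmall (𝒲 : Set (Set X)) (V : Type) [NormedAddCommGroup V] (d : ℕ) : Prop :=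
  ∃ H : unitInterval → X → OnePoint V → OnePoint V,
    Continuous (fun q : unitInterval × X × OnePoint V => H q.1 q.2.1 q.2.2) ∧
    (∀ τ x, H τ x ∞ = ∞) ∧ (∀ x v, H 0 x v = v) ∧
    SmallOn 𝒲 (Prod.fst : X × OnePoint V → X) {e | H 1 e.1 e.2 ≠ ∞} (fun _ => d)

/-- the lift produced from `CSmall`: `b : X × (R^t × R)⁺ → Y⁺`, homotopic to the inclusion; the
cover has order `≤ D` on `{b ≠ ∞}` and order `≤ d` where moreover `b ∉ Y₀`. -/
def Lift (𝒲 : Set (Set X)) {t : ℕ} (C : Space) (u : (Fin t → ℝ) → C.carrier) (d D : ℕ) : Prop :=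
  ∃ B : unitInterval → X → OnePoint ((Fin t → ℝ) × ℝ) → OnePoint (cylSet C u),
    Continuous (fun q : unitInterval × X × OnePoint ((Fin t → ℝ) × ℝ) => B q.1 q.2.1 q.2.2) ∧
    (∀ τ x, B τ x ∞ = ∞) ∧
    (∀ x v l, B 0 x (OnePoint.some (v, l)) = OnePoint.some ⟨(u v, l), Or.inr ⟨v, rfl⟩⟩) ∧
    ∃ ord : X × OnePoint ((Fin t → ℝ) × ℝ) → ℕ, (∀ e, ord e ≤ D) ∧
      (∀ e, (∀ y : cylSet C u, B 1 e.1 e.2 = OnePoint.some y → 0 < y.1.2) → ord e ≤ d) ∧
      SmallOn 𝒲 (Prod.fst : X × OnePoint ((Fin t → ℝ) × ℝ) → X) {e | B 1 e.1 e.2 ≠ ∞} ord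

end Stable

end Vale.Agent.P093.U
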