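import Vale.Agent.P093.U.Stair
import Vale.Agent.P093.U233.Destab

/-!
# P093, part U, blocks U1 + U4: destabilisation

* `exists_radial` (U4): a family of pointed self-maps of the sphere `V⁺` over `X`, homotopic to the
  identity, gives a family `G` of self-maps of a euclidean space `E`, the identity outside the unit
  ball, such that the given map is not `∞` (at the direction of `z`) where `‖G (x, z)‖ < 1/3`.
* `destab_aux` (U1): the destabilisation lemma `StabSmall → ...`, deduced from the general theorem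
  `U233.destab`.
-/

open OnePoint Set Filter Topology Module

namespace Vale.Agent.P093.U

namespace DestabAux

/-- clamp to the unit interval -/
noncomputable def cl (r : ℝ) : unitInterval := Set.projIcc (0 : ℝ) 1 zero_le_one r

theorem continuous_cl : Continuous cl := continuous_projIcc (h := zero_le_one)

theorem cl_of_nonpos {r : ℝ} (h : r ≤ 0) : cl r = 0 := Set.projIcc_of_le_left _ h

theorem cl_of_one_le {r : ℝ} (h : 1 ≤ r) : cl r = 1 := Set.projIcc_of_right_le _ h

section radial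

variable {E : Type*} [NormedAddCommGroup E] [NormedSpace ℝ E]

open Classical in
/-- the direction of a vector; `z₀` for the zero vector -/
noncomputable def dir (z₀ : Metric.sphere (0 : E) 1) (z : E) : Metric.sphere (0 : E) 1 :=
  if h : z = 0 then z₀ else ⟨‖z‖⁻¹ • z, by simp [norm_smul, h]⟩

theorem dir_of_ne (z₀ : Metric.sphere (0 : E) 1) {z : E} (h : z ≠ 0) :
    (dir z₀ z : E) = ‖z‖⁻¹ • z := by
  rw [dir, dif_neg h]

theorem norm_smul_dir (z₀ : Metric.sphere (0 : E) 1) (z : E) : ‖z‖ • (dir z₀ z : E) = z := by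
  by_cases h : z = 0
  · simp [h]
  · rw [dir_of_ne z₀ h, smul_inv_smul₀ (norm_ne_zero_iff.2 h)]

theorem continuousAt_dir (z₀ : Metric.sphere (0 : E) 1) {z : E} (h : z ≠ 0) :
    ContinuousAt (dir z₀) z := by
  rw [IsInducing.subtypeVal.continuousAt_iff]
  have h1 : (fun w : E => ‖w‖⁻¹ • w) =ᶠ[𝓝 z] (Subtype.val ∘ dir z₀) := by
    filter_upwards [isOpen_ne.mem_nhds h] with w hw
    exact (dir_of_ne z₀ hw).symm
  refine ContinuousAt.congr ?_ h1
  exact (continuousAt_id.norm.inv₀ (norm_ne_zero_iff.2 h)).smul continuousAt_id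

theorem continuous_norm_smul {X : Type*} [TopologicalSpace X]
    {φ : X × E → Metric.sphere (0 : E) 1} (h : ∀ p : X × E, p.2 ≠ 0 → ContinuousAt φ p) :
    Continuous fun p : X × E => ‖p.2‖ • (φ p : E) := by
  rw [continuous_iff_continuousAt]
  intro p
  by_cases hp : p.2 = 0
  · rw [ContinuousAt, hp, norm_zero, zero_smul]
    have h1 : Tendsto (fun q : X × E => ‖q.2‖) (𝓝 p) (𝓝 0) := by
      have h2 : Continuous fun q : X × E => ‖q.2‖ := continuous_snd.norm
      have h3 := h2.tendsto p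
      rwa [hp, norm_zero] at h3
    refine squeeze_zero_norm (fun q => ?_) h1
    rw [norm_smul, norm_norm, norm_eq_of_mem_sphere, mul_one]
  · exact (continuous_snd.norm.continuousAt).smul
      (continuous_subtype_val.continuousAt.comp (h p hp))

end radial

/-- **U4**: from stable self-maps of the sphere to a family of self-maps of a euclidean space. -/
theorem exists_radial {X : Type*} [TopologicalSpace X] {V : Type} [NormedAddCommGroup V]
    [NormedSpace ℝ V] [FiniteDimensional ℝ V]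
    {H : unitInterval → X → OnePoint V → OnePoint V}
    (hH : Continuous (fun q : unitInterval × X × OnePoint V => H q.1 q.2.1 q.2.2))
    (h0 : ∀ x v, H 0 x v = v) :
    ∃ (T : ℕ) (G : X × EuclideanSpace ℝ (Fin T) → EuclideanSpace ℝ (Fin T))
      (q : EuclideanSpace ℝ (Fin T) → OnePoint V), Continuous G ∧
      (∀ z, z ≠ 0 → ContinuousAt q z) ∧ (∀ x z, 1 ≤ ‖z‖ → G (x, z) = z) ∧
      ∀ x z, ‖G (x, z)‖ < 1 / 3 → z ≠ 0 ∧ H 1 x (q z) ≠ ∞ := by
  let T := finrank ℝ V + 1
  let Φ : OnePoint V ≃ₜ Metric.sphere (0 : EuclideanSpace ℝ (Fin T)) 1 :=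
    onePointEquivSphereOfFinrankEq (by simp [T])
  let z₀ := Φ ∞
  let q : EuclideanSpace ℝ (Fin T) → OnePoint V := fun z => Φ.symm (dir z₀ z)
  have hq : ∀ z, z ≠ 0 → ContinuousAt q z := fun z hz =>
    Φ.symm.continuous.continuousAt.comp (continuousAt_dir z₀ hz)
  let F : X × EuclideanSpace ℝ (Fin T) → Metric.sphere (0 : EuclideanSpace ℝ (Fin T)) 1 :=
    fun p => Φ (H (cl (3 - ‖p.2‖)) p.1 (q p.2))
  have hF : ∀ p : X × EuclideanSpace ℝ (Fin T), p.2 ≠ 0 → ContinuousAt F p := by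
    intro p hp
    have h1 : ContinuousAt (fun p : X × EuclideanSpace ℝ (Fin T) =>
        ((cl (3 - ‖p.2‖), p.1, q p.2) : unitInterval × X × OnePoint V)) p :=
      (continuous_cl.comp (continuous_const.sub continuous_snd.norm)).continuousAt.prodMk
        (continuousAt_fst.prodMk ((hq p.2 hp).comp continuousAt_snd))
    exact Φ.continuous.continuousAt.comp (hH.continuousAt.comp
      (f := fun p : X × EuclideanSpace ℝ (Fin T) =>
        ((cl (3 - ‖p.2‖), p.1, q p.2) : unitInterval × X × OnePoint V)) h1)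
  let R : X × EuclideanSpace ℝ (Fin T) → EuclideanSpace ℝ (Fin T) := fun p =>
    ‖p.2‖ • (F p : EuclideanSpace ℝ (Fin T)) +
      ((cl (2 - ‖p.2‖) : unitInterval) : ℝ) • (z₀ : EuclideanSpace ℝ (Fin T))
  have hR : Continuous R := (continuous_norm_smul hF).add
    ((continuous_subtype_val.comp
      (continuous_cl.comp (continuous_const.sub continuous_snd.norm))).smul continuous_const)
  have hz₀ : ‖(z₀ : EuclideanSpace ℝ (Fin T))‖ = 1 := norm_eq_of_mem_sphere z₀
  have hR1 : ∀ x z, 3 ≤ ‖z‖ → R (x, z) = z := by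
    intro x z hz
    have h1 : cl (3 - ‖z‖) = 0 := cl_of_nonpos (by linarith)
    have h2 : cl (2 - ‖z‖) = 0 := cl_of_nonpos (by linarith)
    simp only [R, F, h1, h2, h0, q, Homeomorph.apply_symm_apply, norm_smul_dir]
    simp
  have hR2 : ∀ x z, ‖R (x, z)‖ < 1 → z ≠ 0 ∧ H 1 x (q z) ≠ ∞ := by
    intro x z hlt
    have h1 : ‖z‖ < 2 := by
      by_contra hcon
      push Not at hcon
      have h2 : cl (2 - ‖z‖) = 0 := cl_of_nonpos (by linarith)
      have h3 : ‖R (x, z)‖ = ‖z‖ := by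
        simp only [R, h2]
        simp [norm_smul]
      linarith
    have h2 : cl (3 - ‖z‖) = 1 := cl_of_one_le (by linarith)
    refine ⟨?_, ?_⟩
    · rintro rfl
      have h3 : cl (2 : ℝ) = 1 := cl_of_one_le (by norm_num)
      have h4 : ‖R (x, 0)‖ = 1 := by
        simp only [R, norm_zero, sub_zero, h3]
        simp [hz₀]
      linarith
    · intro hcon
      have h3 : R (x, z) = (‖z‖ + (cl (2 - ‖z‖) : ℝ)) • (z₀ : EuclideanSpace ℝ (Fin T)) := by
        simp only [R, F, h2, hcon, add_smul]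
        rfl
      have h4 : 1 ≤ ‖z‖ + (cl (2 - ‖z‖) : ℝ) := by
        rcases le_total ‖z‖ 1 with h | h
        · rw [cl_of_one_le (by linarith : 1 ≤ 2 - ‖z‖)]
          simp
        · have := (cl (2 - ‖z‖)).2.1
          linarith
      rw [h3, norm_smul, hz₀, mul_one, Real.norm_eq_abs, abs_of_nonneg (by linarith)] at hlt
      linarith
  have hR3 : ∀ z : EuclideanSpace ℝ (Fin T), q ((3 : ℝ) • z) = q z := by
    intro z
    by_cases hz : z = 0
    · simp [hz]
    · simp only [q]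
      congr 1
      apply Subtype.ext
      rw [dir_of_ne _ hz, dir_of_ne _ (smul_ne_zero (by norm_num) hz), norm_smul, smul_smul]
      congr 1
      rw [Real.norm_eq_abs, abs_of_pos (by norm_num : (0 : ℝ) < 3), mul_inv]
      field_simp
  refine ⟨T, fun p => (3 : ℝ)⁻¹ • R (p.1, (3 : ℝ) • p.2), q, ?_, hq, ?_, ?_⟩
  · have h1 : Continuous fun p : X × EuclideanSpace ℝ (Fin T) => (p.1, (3 : ℝ) • p.2) :=
      continuous_fst.prodMk (continuous_snd.const_smul (3 : ℝ))
    exact (hR.comp h1).const_smul (3 : ℝ)⁻¹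
  · intro x z hz
    have h1 : 3 ≤ ‖(3 : ℝ) • z‖ := by
      rw [norm_smul, Real.norm_eq_abs, abs_of_pos (by norm_num : (0 : ℝ) < 3)]
      linarith
    simp only [hR1 x _ h1]
    rw [inv_smul_smul₀ (by norm_num)]
  · intro x z hz
    have h1 : ‖R (x, (3 : ℝ) • z)‖ < 1 := by
      simp only [norm_smul, norm_inv] at hz
      rw [Real.norm_eq_abs, abs_of_pos (by norm_num : (0 : ℝ) < 3)] at hz
      linarith
    obtain ⟨h2, h3⟩ := hR2 x _ h1
    rw [hR3] at h3
    exact ⟨fun h => h2 (by simp [h]), h3⟩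

/-- coefficient of a radial map -/
noncomputable def cf (r : ℝ) : ℝ := (max (1 / 6) (min r 1))⁻¹

theorem continuous_cf : Continuous cf := by
  unfold cf
  refine Continuous.inv₀ (by fun_prop) fun r => ?_
  have : (1 / 6 : ℝ) ≤ max (1 / 6) (min r 1) := le_max_left _ _
  intro h
  linarith

theorem cf_of_one_le {r : ℝ} (h : 1 ≤ r) : cf r = 1 := by
  rw [cf, min_eq_right h, max_eq_right (by norm_num), inv_one]

theorem one_le_cf_mul {r : ℝ} (h : 1 / 6 ≤ r) : 1 ≤ cf r * r := by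
  have h1 : (1 / 6 : ℝ) ≤ max (1 / 6) (min r 1) := le_max_left _ _
  have h2 : max (1 / 6) (min r 1) ≤ r := max_le h (min_le_left _ _)
  rw [cf, inv_mul_eq_div, le_div_iff₀ (by linarith)]
  linarith

theorem cf_nonneg (r : ℝ) : 0 ≤ cf r := by
  have h1 : (1 / 6 : ℝ) ≤ max (1 / 6) (min r 1) := le_max_left _ _
  exact inv_nonneg.2 (by linarith)

theorem ncard_pos_of_sum {ι : Type*} [Fintype ι] {y : ι → ℝ} (h : ∑ i, y i = 1) :
    0 < {i | y i ≠ 0}.ncard := by
  rw [Set.ncard_pos]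
  by_contra hcon
  rw [Set.not_nonempty_iff_eq_empty] at hcon
  have h1 : ∀ i, y i = 0 := by
    intro i
    by_contra hi
    have : i ∈ {i | y i ≠ 0} := hi
    rw [hcon] at this
    exact this
  simp [h1] at h

/-- **U1**: the destabilisation lemma on the level of weights. -/
theorem destab_weights {X : Type*} [TopologicalSpace X] {W : Set (Set X)} {V : Type}
    [NormedAddCommGroup V] [NormedSpace ℝ V] [FiniteDimensional ℝ V] {d D : ℕ}
    (h : StabSmall W V d) (hf : SmallOn W (id : X → X) univ (fun _ => D)) :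
    ∃ T : ℕ, ∀ (W₀ : Set (Set X)) (D₀ : ℕ), SmallOn W₀ (id : X → X) univ (fun _ => D₀) →
      T ≤ D₀ + 1 → ∃ ord₁ ord₂ : X → ℕ, SmallOn W (id : X → X) univ ord₁ ∧
        SmallOn W₀ (id : X → X) univ ord₂ ∧ ∀ x, ord₁ x + ord₂ x ≤ D₀ + d := by
  classical
  obtain ⟨H, hH, -, h0, ι, _, w, hwc, hw0, hw1, hwV, hwn⟩ := h
  obtain ⟨κ, _, f, hfc, hf0, hf1, hfV, -⟩ := hf
  obtain ⟨T, G, q, hG, hq, hG1, hG2⟩ := exists_radial hH h0
  choose V₁ hV₁ hV₁' using hwV
  choose V₂ hV₂ hV₂' using hfV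
  refine ⟨T + 2 * Fintype.card (ι ⊕ κ), fun W₀ D₀ hsm hT => ?_⟩
  obtain ⟨ι₀, _, f₂, hf₂c, hf₂0, hf₂1, hf₂V, hf₂n⟩ := hsm
  choose V₀ hV₀ hV₀' using hf₂V
  have hfc' : ∀ j, Continuous (f j) := fun j => continuousOn_univ.1 (hfc j)
  have hf₂c' : ∀ j, Continuous (f₂ j) := fun j => continuousOn_univ.1 (hf₂c j)
  -- the cut-off
  let θ : X × EuclideanSpace ℝ (Fin T) → ℝ := fun p => (cl (2 - 6 * ‖G p‖) : ℝ)
  have hθc : Continuous θ := continuous_subtype_val.comp
    (continuous_cl.comp (continuous_const.sub (continuous_const.mul hG.norm)))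
  have hθ0 : ∀ p, 0 ≤ θ p := fun p => (cl _).2.1
  have hθ1 : ∀ p, θ p ≤ 1 := fun p => (cl _).2.2
  have hθz : ∀ p, 1 / 3 ≤ ‖G p‖ → θ p = 0 := fun p hp => by
    simp only [θ]
    rw [cl_of_nonpos (by linarith)]
    rfl
  have hθo : ∀ p, ‖G p‖ ≤ 1 / 6 → θ p = 1 := fun p hp => by
    simp only [θ]
    rw [cl_of_one_le (by linarith)]
    rfl
  -- the open set where the weights `w` are defined
  have hK : IsOpen {e : X × OnePoint V | H 1 e.1 e.2 ≠ ∞} := by
    have h1 : Continuous fun e : X × OnePoint V => H 1 e.1 e.2 :=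
      hH.comp (g := fun q : unitInterval × X × OnePoint V => H q.1 q.2.1 q.2.2)
        (f := fun e : X × OnePoint V => ((1 : unitInterval), e.1, e.2)) (by fun_prop)
    exact isOpen_ne.preimage h1
  have hmem : ∀ x z, θ (x, z) ≠ 0 → (x, q z) ∈ {e : X × OnePoint V | H 1 e.1 e.2 ≠ ∞} := by
    intro x z hz
    refine (hG2 x z ?_).2
    by_contra hcon
    exact hz (hθz _ (not_lt.1 hcon))
  have hw1' : ∀ i, ∀ e ∈ {e : X × OnePoint V | H 1 e.1 e.2 ≠ ∞}, w i e ≤ 1 := by
    intro i e he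
    rw [← hw1 e he]
    exact Finset.single_le_sum (f := fun i => w i e) (fun j _ => hw0 j e he) (Finset.mem_univ i)
  have hwcont : ∀ i, Continuous fun p : X × EuclideanSpace ℝ (Fin T) =>
      θ p * w i (p.1, q p.2) := by
    intro i
    rw [continuous_iff_continuousAt]
    intro p
    by_cases hp : ‖G p‖ < 1 / 3
    · obtain ⟨h1, h2⟩ := hG2 p.1 p.2 hp
      have h3 : ContinuousAt (w i) (p.1, q p.2) :=
        (hwc i).continuousAt (hK.mem_nhds h2)
      have h4 : ContinuousAt (fun p : X × EuclideanSpace ℝ (Fin T) => (p.1, q p.2)) p :=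
        continuousAt_fst.prodMk ((hq p.2 h1).comp continuousAt_snd)
      exact hθc.continuousAt.mul (h3.comp (f := fun p : X × EuclideanSpace ℝ (Fin T) =>
        (p.1, q p.2)) h4)
    · have h1 : θ p = 0 := hθz p (not_lt.1 hp)
      have h2 : Tendsto θ (𝓝 p) (𝓝 0) := h1 ▸ hθc.tendsto p
      rw [ContinuousAt, h1, zero_mul]
      refine squeeze_zero_norm (fun p' => ?_) h2
      rw [norm_mul, Real.norm_eq_abs, abs_of_nonneg (hθ0 p')]
      by_cases h3 : θ p' = 0
      · simp [h3]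
      · have h4 := hmem p'.1 p'.2 h3
        rw [Real.norm_eq_abs, abs_of_nonneg (hw0 i _ h4)]
        exact mul_le_of_le_one_right (hθ0 p') (hw1' i _ h4)
  -- the data of `U233.destab`
  let C : X → Set (ι ⊕ κ → ℝ) := fun x =>
    {y | (∀ i, 0 ≤ y i) ∧ ∑ i, y i = 1 ∧ ∀ i, y i ≠ 0 → x ∈ Sum.elim V₁ V₂ i}
  let A : X → Set (ι ⊕ κ → ℝ) := fun _ => {y | {i | y i ≠ 0}.ncard ≤ d + 1}
  let G₁ : X × EuclideanSpace ℝ (Fin T) → (ι ⊕ κ → ℝ) := fun p =>
    Sum.elim (fun i => θ p * w i (p.1, q p.2)) (fun j => (1 - θ p) * f j p.1)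
  let G₂ : X × EuclideanSpace ℝ (Fin T) → EuclideanSpace ℝ (Fin T) := fun p => cf ‖G p‖ • G p
  let f₁ : X → (ι ⊕ κ → ℝ) := fun x => Sum.elim (fun _ => 0) (fun j => f j x)
  have hC : ∀ x, Convex ℝ (C x) := by
    rintro x y ⟨hy0, hy1, hyV⟩ z ⟨hz0, hz1, hzV⟩ a b ha hb hab
    refine ⟨fun i => ?_, ?_, fun i hi => ?_⟩
    · exact add_nonneg (mul_nonneg ha (hy0 i)) (mul_nonneg hb (hz0 i))
    · simp only [Pi.add_apply, Pi.smul_apply, smul_eq_mul, Finset.sum_add_distrib,
        ← Finset.mul_sum, hy1, hz1, mul_one, hab]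
    · by_cases hyi : y i = 0
      · by_cases hzi : z i = 0
        · exact absurd (by simp [hyi, hzi]) hi
        · exact hzV i hzi
      · exact hyV i hyi
  have hf₁ : Continuous f₁ := by
    refine continuous_pi ?_
    rintro (i | j)
    · exact continuous_const
    · exact hfc' j
  have hf₁C : ∀ x, f₁ x ∈ C x := by
    intro x
    refine ⟨?_, ?_, ?_⟩
    · rintro (i | j)
      · exact le_rfl
      · exact hf0 j x (mem_univ x)
    · simp only [f₁, Fintype.sum_sum_type, Sum.elim_inl, Sum.elim_inr, Finset.sum_const_zero,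
        zero_add]
      exact hf1 x (mem_univ x)
    · rintro (i | j) hi
      · exact absurd rfl hi
      · exact hV₂' j x (mem_univ x) hi
  have hG₁ : Continuous G₁ := by
    refine continuous_pi ?_
    rintro (i | j)
    · exact hwcont i
    · exact (continuous_const.sub hθc).mul ((hfc' j).comp continuous_fst)
  have hG₂ : Continuous G₂ := (continuous_cf.comp hG.norm).smul hG
  have hG₁C : ∀ x l, G₁ (x, l) ∈ C x := by
    intro x l
    refine ⟨?_, ?_, ?_⟩
    · rintro (i | j)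
      · by_cases h3 : θ (x, l) = 0
        · simp [G₁, h3]
        · exact mul_nonneg (hθ0 _) (hw0 i _ (hmem x l h3))
      · exact mul_nonneg (sub_nonneg.2 (hθ1 _)) (hf0 j x (mem_univ x))
    · simp only [G₁, Fintype.sum_sum_type, Sum.elim_inl, Sum.elim_inr, ← Finset.mul_sum]
      rw [hf1 x (mem_univ x)]
      by_cases h3 : θ (x, l) = 0
      · simp [h3]
      · rw [hw1 _ (hmem x l h3)]
        ring
    · rintro (i | j) hi
      · have h3 : θ (x, l) ≠ 0 := fun h => hi (by simp [G₁, h])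
        exact hV₁' i _ (hmem x l h3) (fun h => hi (by simp [G₁, h]))
      · exact hV₂' j x (mem_univ x) (fun h => hi (by simp [G₁, h]))
  have hGb : ∀ x l, 1 ≤ ‖l‖ → G₁ (x, l) = f₁ x ∧ G₂ (x, l) = l := by
    intro x l hl
    have h1 := hG1 x l hl
    have h2 : θ (x, l) = 0 := hθz _ (by rw [h1]; linarith)
    refine ⟨?_, ?_⟩
    · ext i
      rcases i with i | j
      · simp [G₁, f₁, h2]
      · simp [G₁, f₁, h2]
    · simp only [G₂, h1, cf_of_one_le hl, one_smul]
  have hGA : ∀ x l, G₁ (x, l) ∈ A x ∨ 1 ≤ ‖G₂ (x, l)‖ := by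
    intro x l
    rcases le_total ‖G (x, l)‖ (1 / 6) with h1 | h1
    · left
      have h2 := hθo _ h1
      have h3 : (x, q l) ∈ {e : X × OnePoint V | H 1 e.1 e.2 ≠ ∞} :=
        hmem x l (by rw [h2]; norm_num)
      have h4 : {i | G₁ (x, l) i ≠ 0} ⊆ Sum.inl '' {i | w i (x, q l) ≠ 0} := by
        rintro (i | j) hi
        · exact ⟨i, fun h => hi (by simp [G₁, h]), rfl⟩
        · exact absurd (by simp [G₁, h2]) hi
      calc {i | G₁ (x, l) i ≠ 0}.ncard ≤ (Sum.inl '' {i | w i (x, q l) ≠ 0}).ncard :=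
            Set.ncard_le_ncard h4 (Set.toFinite _)
        _ ≤ {i | w i (x, q l) ≠ 0}.ncard := Set.ncard_image_le (Set.toFinite _)
        _ ≤ d + 1 := hwn _ h3
    · right
      simp only [G₂]
      rw [norm_smul, Real.norm_eq_abs, abs_of_nonneg (cf_nonneg _)]
      exact one_le_cf_mul h1
  let F₂ : X → ι₀ → ℝ := fun x j => f₂ j x
  let π : ι₀ → Unit := fun _ => ()
  have hF₂ : Continuous F₂ := continuous_pi hf₂c'
  have hF₂P : ∀ x, F₂ x ∈ U233.Prd π := by
    intro x
    refine ⟨fun j => hf₂0 j x (mem_univ x), fun g => ?_⟩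
    simpa [π] using hf₂1 x (mem_univ x)
  have hspt : ∀ y : ι₀ → ℝ, {i | y i ≠ 0}.ncard = (U233.spt y).card := by
    intro y
    rw [← Set.ncard_coe_finset]
    congr 1
    ext i
    simp [U233.mem_spt]
  have hdm : ∀ y : ι₀ → ℝ, ∑ i, y i = 1 → U233.dm π (U233.spt y) = (U233.spt y).card - 1 := by
    intro y hy
    have h1 := ncard_pos_of_sum hy
    rw [hspt, Finset.card_pos] at h1
    have h2 : (U233.spt y).image π = {()} :=
      Finset.eq_singleton_iff_unique_mem.2
        ⟨Finset.mem_image.2 ⟨h1.choose, h1.choose_spec, rfl⟩, fun _ _ => rfl⟩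
    rw [U233.dm, h2, Finset.card_singleton]
  have hF₂D : ∀ x, U233.dm π (U233.spt (F₂ x)) ≤ D₀ := by
    intro x
    rw [hdm _ (hf₂1 x (mem_univ x)), ← hspt]
    exact Nat.sub_le_sub_right (hf₂n x (mem_univ x)) 1
  obtain ⟨g₁, g₂, hg₁, hg₂, hg₁C, hg₂P, hg₂s, hgd⟩ := U233.destab π (C := C) (A := A) hC hf₁ hf₁C
    hG₁ hG₂ hG₁C hGb hGA hF₂ hF₂P hF₂D (d := D₀ + 1 - Fintype.card (ι ⊕ κ)) (by
      rw [finrank_euclideanSpace_fin]
      omega)
  have hg₂1 : ∀ x, ∑ i, g₂ x i = 1 := by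
    intro x
    simpa [π] using (hg₂P x).2 ()
  have hn₁ : ∀ x, 0 < {i | g₁ x i ≠ 0}.ncard := fun x => ncard_pos_of_sum (hg₁C x).2.1
  have hn₂ : ∀ x, 0 < {i | g₂ x i ≠ 0}.ncard := fun x => ncard_pos_of_sum (hg₂1 x)
  refine ⟨fun x => {i | g₁ x i ≠ 0}.ncard - 1, fun x => {i | g₂ x i ≠ 0}.ncard - 1, ?_, ?_, ?_⟩
  · refine ⟨ι ⊕ κ, inferInstance, fun i x => g₁ x i, ?_, ?_, ?_, ?_, ?_⟩
    · exact fun i => ((continuous_apply i).comp hg₁).continuousOn
    · exact fun i x _ => (hg₁C x).1 i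
    · exact fun x _ => (hg₁C x).2.1
    · rintro (i | j)
      · exact ⟨V₁ i, hV₁ i, fun x _ hx => (hg₁C x).2.2 (Sum.inl i) hx⟩
      · exact ⟨V₂ j, hV₂ j, fun x _ hx => (hg₁C x).2.2 (Sum.inr j) hx⟩
    · intro x _
      have := hn₁ x
      simp only
      omega
  · refine ⟨ι₀, inferInstance, fun i x => g₂ x i, ?_, ?_, ?_, ?_, ?_⟩
    · exact fun i => ((continuous_apply i).comp hg₂).continuousOn
    · exact fun i x _ => (hg₂P x).1 i
    · exact fun x _ => hg₂1 x
    · intro i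
      refine ⟨V₀ i, hV₀ i, fun x _ hx => hV₀' i x (mem_univ x) ?_⟩
      exact (U233.mem_spt (y := F₂ x)).1 (hg₂s x (U233.mem_spt.2 hx))
    · intro x _
      have := hn₂ x
      simp only
      omega
  · intro x
    have h1 := hn₁ x
    have h2 := hn₂ x
    simp only
    have h5 : {i | g₂ x i ≠ 0}.ncard ≤ D₀ + 1 := by
      rw [hspt]
      refine (Finset.card_le_card (hg₂s x)).trans ?_
      rw [← hspt]
      exact hf₂n x (mem_univ x)
    rcases hgd x with h3 | h3
    · have h4 : {i | g₁ x i ≠ 0}.ncard ≤ d + 1 := h3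
      omega
    · have h4 : {i | g₁ x i ≠ 0}.ncard ≤ Fintype.card (ι ⊕ κ) := by
        rw [← Nat.card_eq_fintype_card, ← Set.ncard_univ]
        exact Set.ncard_le_ncard (subset_univ _) (Set.toFinite _)
      rw [hdm _ (hg₂1 x), ← hspt] at h3
      omega

end DestabAux

/-- **Destabilisation.** If `W` has stable sections of order `≤ d`, then adding `W` to a cover `W₀`
of large order increases the order by at most `d`. -/
theorem destab {X : Type*} [TopologicalSpace X] [CompactSpace X] [T2Space X] {W : Set (Set X)}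
    (hW : IsFinOpenCover W) {V : Type} [NormedAddCommGroup V] [NormedSpace ℝ V]
    [FiniteDimensional ℝ V] {d : ℕ} (h : StabSmall W V d) :
    ∃ T : ℕ, ∀ W₀ : Set (Set X), IsFinOpenCover W₀ →
      T * (coverDim W + 1) ≤ coverDim W₀ + 1 →
      coverDim {U | ∃ A ∈ W, ∃ B ∈ W₀, U = A ∩ B} ≤ coverDim W₀ + d := by
  obtain ⟨T, hT⟩ := DestabAux.destab_weights h (smallOn_of_coverDim hW)
  refine ⟨T, fun W₀ hW₀ hle => ?_⟩
  obtain ⟨ord₁, ord₂, h₁, h₂, hle'⟩ := hT W₀ (coverDim W₀) (smallOn_of_coverDim hW₀)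
    ((Nat.le_mul_of_pos_right T (Nat.succ_pos _)).trans hle)
  have h3 := SmallOn.join (J := Bool) (W := fun b => cond b W W₀)
    (p := (id : X → X)) (K := univ) (ord := fun b => cond b ord₁ ord₂)
    (by
      rintro (_ | _)
      · exact h₂
      · exact h₁)
  refine coverDim_le_of_smallOn (h3.mono ?_ (subset_univ _) ?_)
  · rintro U ⟨f, hf, rfl⟩
    refine ⟨f true ∩ f false, ⟨f true, hf true, f false, hf false, rfl⟩, ?_⟩
    intro x hx
    rw [mem_iInter] at hx
    exact ⟨hx true, hx false⟩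
  · intro x _
    simp only [Fintype.sum_bool, cond_true, cond_false]
    exact hle' x

end Vale.Agent.P093.U
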